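import Mathlib

/-!
# Homogeneous holomorphic functions are polynomials
-/

namespace Vale.Agent.P269.Cnt

open Set Filter Topology MvPolynomial

variable {I : Type} [Fintype I] {f : (I → ℂ) → ℂ}

theorem Poly.const (ha : ∀ v ≠ 0, AnalyticAt ℂ f v) (hs : ∀ s : ℂ, s ≠ 0 → ∀ v ≠ 0, f (s • v) = f v)
    {v w : I → ℂ} (hv : v ≠ 0) (hw : w ≠ 0) : f v = f w := by
  by_cases h : ∀ z : ℂ, v + z • (w - v) ≠ 0
  · obtain ⟨C, hC⟩ := (isCompact_sphere (0 : I → ℂ) 1).exists_bound_of_continuousOn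
      fun u hu => (ha u (Metric.ne_of_mem_sphere hu one_ne_zero)).continuousAt.continuousWithinAt
    have k := Differentiable.apply_eq_apply_of_bounded (f := fun z : ℂ => f (v + z • (w - v)))
      (fun z => (ha _ (h z)).differentiableAt.comp z (by fun_prop))
      (isBounded_iff_forall_norm_le.2 ⟨C, by
        rintro _ ⟨z, rfl⟩
        have e := norm_ne_zero_iff.2 (h z)
        beta_reduce
        rw [← hs _ (inv_ne_zero (Complex.ofReal_ne_zero.2 e)) _ (h z)]
        exact hC _ (by simp [norm_smul, e, -smul_add])⟩) 0 1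
    simpa using k
  · obtain ⟨z, e⟩ := not_forall_not.1 h
    have z0 : z ≠ 0 := fun k => hv (by simpa [k] using e)
    have e1 : w = ((z - 1) / z) • v := by
      rw [div_eq_inv_mul, mul_smul, eq_inv_smul_iff₀ z0]
      linear_combination (norm := module) e
    rw [e1, hs _ (fun k => hw (by rw [e1, k, zero_smul])) v hv]

theorem Poly.nat (N : ℕ) (ha : ∀ v ≠ 0, AnalyticAt ℂ f v)
    (hs : ∀ s : ℂ, s ≠ 0 → ∀ v ≠ 0, f (s • v) = s ^ N * f v) :
    ∃ p : MvPolynomial I ℂ, p.IsHomogeneous N ∧ ∀ v ≠ 0, eval v p = f v := by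
  classical
  induction N generalizing f with
  | zero =>
    by_cases h : ∃ w : I → ℂ, w ≠ 0
    · obtain ⟨w, hw⟩ := h
      exact ⟨C (f w), isHomogeneous_C _ _, fun v hv => (eval_C _).trans
        (Poly.const ha (by simpa using hs) hw hv)⟩
    · exact ⟨0, isHomogeneous_zero _ _ _, fun v hv => (h ⟨v, hv⟩).elim⟩
  | succ N ih =>
    have k : ∀ i, ∃ p : MvPolynomial I ℂ, p.IsHomogeneous N ∧
        ∀ v ≠ 0, eval v p = fderiv ℂ f v (Pi.single i 1) := fun i => by
      refine ih (fun v hv => ((ContinuousLinearMap.apply ℂ ℂ (Pi.single i 1 : I → ℂ)).analyticAt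
        _).comp (ha v hv).fderiv) fun s s0 v hv => mul_left_cancel₀ s0 ?_
      have e := ((ha _ (smul_ne_zero s0 hv)).differentiableAt.hasFDerivAt.comp v
        ((hasFDerivAt_id v).const_smul s)).unique
        (((ha v hv).differentiableAt.hasFDerivAt.const_mul (s ^ (N + 1))).congr_of_eventuallyEq
          ((eventually_ne_nhds hv).mono fun u hu => hs s s0 u hu))
      simpa [pow_succ', mul_assoc] using congrArg (fun L => L (Pi.single i 1)) e
    choose p hp e using k
    have n0 : (N + 1 : ℂ) ≠ 0 := Nat.cast_add_one_ne_zero N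
    refine ⟨C (N + 1 : ℂ)⁻¹ * ∑ i, p i * X i, (IsHomogeneous.sum _ _ _ fun i _ =>
      (hp i).mul (isHomogeneous_X _ i)).C_mul _, fun v hv => ?_⟩
    have d1 : HasDerivAt (fun s : ℂ => f (s • v)) (fderiv ℂ f v v) 1 := by
      have := (ha v hv).differentiableAt.hasFDerivAt.comp_hasDerivAt_of_eq (1 : ℂ)
        ((hasDerivAt_id (1 : ℂ)).smul_const v) (one_smul _ _).symm
      rwa [one_smul] at this
    have d2 := d1.unique (((hasDerivAt_pow (N + 1) (1 : ℂ)).mul_const (f v)).congr_of_eventuallyEq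
      ((eventually_ne_nhds one_ne_zero).mono fun s s0 => hs s s0 v hv))
    have d3 : fderiv ℂ f v v = ∑ i, fderiv ℂ f v (Pi.single i 1) * v i := by
      rw [congrArg (fderiv ℂ f v) (pi_eq_sum_univ' v), map_sum]
      simp [mul_comm]
    simp only [map_mul, eval_C, map_sum, eval_X, e _ v hv]
    rw [← d3, d2, inv_mul_eq_iff_eq_mul₀ n0]
    simp

theorem exists_poly [Nontrivial I] {n : ℤ} (ha : ∀ v ≠ 0, AnalyticAt ℂ f v)
    (hs : ∀ s : ℂ, s ≠ 0 → ∀ v ≠ 0, f (s • v) = s ^ n * f v) :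
    ∃ p : MvPolynomial I ℂ, (∀ α ∈ p.support, ((∑ o, α o : ℕ) : ℤ) = n) ∧
      ∀ v ≠ 0, MvPolynomial.eval v p = f v := by
  classical
  rcases n with N | N
  · obtain ⟨p, h1, h2⟩ := Poly.nat N ha (by simpa using hs)
    refine ⟨p, fun α hα => congrArg _ ?_, h2⟩
    rw [← Finsupp.degree_eq_sum]
    exact by_contra fun k => mem_support_iff.1 hα (h1.coeff_eq_zero k)
  refine ⟨0, by simp, fun v hv => ?_⟩
  obtain ⟨i, hi⟩ := Function.ne_iff.1 hv
  obtain ⟨j, hj⟩ := exists_ne i
  have k := Poly.const (f := fun u => f u * u i ^ (N + 1)) (fun u hu => (ha u hu).mul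
    (((ContinuousLinearMap.proj (R := ℂ) (φ := fun _ : I => ℂ) i).analyticAt u).pow _))
    (fun s s0 u hu => by
      rw [hs s s0 u hu, zpow_negSucc, Pi.smul_apply, smul_eq_mul, mul_pow]
      field_simp) hv (w := Pi.single j 1) (by simp)
  exact Eq.symm (by simpa [hj.symm, show v i ≠ 0 from hi] using k)

end Vale.Agent.P269.Cnt
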