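import Vale.Agent.P287Q.Cnt.Rul
import Vale.Agent.P287Q.Wg.Blm
import Vale.Agent.P287Q.Wg.Defs
import Vale.Agent.P287Q.Us.Bir
import Vale.Agent.P287Q.Us.Sct

/-!
# The exceptional fibres of a blow-up and of the master space of a blow-up
-/

set_option linter.unusedSectionVars false

namespace Vale.Agent.P287Q

open Set Function Topology Filter Module P269 P269.Holo MvPolynomial Wg

namespace GeB

variable {J R K I : Type} [Fintype J] [Fintype R] [Fintype K] [Fintype I] [DecidableEq R]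
  {π : J → R} {A C : Set (J → ℂ)} {g : K → MvPolynomial J ℂ} {δ : R → ℤ} {n m : ℕ} {y : J → ℂ}

theorem scl_none (c : ℂ) (y : J → ℂ) (u : K → ℂ) :
    scl (blP K π) (fun r => c ^ (Pi.single none 1 : Option R → ℤ) r) (Sum.elim y u) =
      Sum.elim y (c • u) :=
  funext fun j => j.rec (fun _ => by simp [scl, blP]) fun _ => by simp [scl, blP]

theorem whom_lin (π : J → R) (c : K → ℂ) :
    WHom (bw (blP K π)) (Pi.single none 1) (∑ k, c k • X (.inr k) : MvPolynomial (J ⊕ K) ℂ) :=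
  whom_iff.2 (IsWeightedHomogeneous.sum _ _ _ fun k _ =>
    (weightedHomogeneousSubmodule ℂ (bw (blP K π)) (Pi.single none 1)).smul_mem _
      (isWeightedHomogeneous_X ℂ (bw (blP K π)) (.inr k)))

theorem crd (π : J → R) (y : J → ℂ) {M : (I → ℂ) →ₗ[ℂ] K → ℂ} (h : Injective M) (a : I) :
    ∃ f : MvPolynomial (J ⊕ K) ℂ, WHom (bw (blP K π)) (Pi.single none 1) f ∧
      ∀ v, eval (Sum.elim y (M v)) f = v a := by
  have := Classical.decEq K
  obtain ⟨N, hN⟩ := M.exists_leftInverse_of_injective (LinearMap.ker_eq_bot.2 h)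
  refine ⟨_, whom_lin π fun k => N (fun j => if k = j then 1 else 0) a, fun v => ?_⟩
  have e : N (M v) a = v a := congrFun (LinearMap.congr_fun hN v) a
  rw [← e, N.pi_apply_eq_sum_univ (M v)]
  simp [mul_comm]

/-- The fibre of a blow-up over a point of the centre is a linear space. -/
theorem fib (h : Cut π A C δ g) (hA : PV π A n) (hC : PV π C m) (hy : y ∈ C)
    (hI : Fintype.card I + m = n) : ∃ s : (I → ℂ) → J ⊕ K → ℂ,
      LnF (blP K π) (blA A g) (Pi.single none 1) none s ∧ (∀ v, s v ∘ .inl = y) ∧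
        ∀ u, Sum.elim y u ∈ blA A g → ∃ v ≠ 0, s v = Sum.elim y u := by
  obtain ⟨ψ, G, b, rfl, -⟩ := h.exists_blD hA hC hy
  obtain ⟨L⟩ : Nonempty ((I → ℂ) ≃L[ℂ] (Fin (n - m) → ℂ)) := ⟨.ofFinrankEq (by simp [← hI])⟩
  refine ⟨fun v => Sum.elim (ψ (0, 0)) (G (0, 0) (L v)), ⟨fun v _ => an_elim analyticAt_const
    (((G (0, 0)).comp L.toContinuousLinearMap).analyticAt v),
    fun v hv => b.fib.2 ⟨L v, L.map_ne_zero_iff.2 hv, rfl⟩, fun c _ v _ => by
      rw [scl_none, map_smul, map_smul], Pi.single_eq_same _ _, fun a => ?_⟩,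
    fun _ => rfl, fun u hu => ?_⟩
  · exact (crd π _ (M := (G (0, 0)).toLinearMap ∘ₗ L.toLinearMap) (b.inj.comp L.injective) a).imp
      fun f e => ⟨e.1, fun v _ => e.2 v⟩
  · obtain ⟨a, a1, rfl⟩ := b.fib.1 hu
    exact ⟨L.symm a, L.symm.map_ne_zero_iff.2 a1, by simp only [L.apply_symm_apply]⟩

/-- Off the exceptional divisor one of the new fields does not vanish. -/
theorem out (hg : ∀ k, WHom (bw π) δ (g k)) {w₀ : J ⊕ K → ℂ} (h₀ : gv g (w₀ ∘ .inl) ≠ 0) :
    ∃ j, (Pi.single none 1 : Option R → ℤ) (blP K π j) ≠ 0 ∧ ∀ w ∈ blA A g, ∀ t : Option R → ℂ,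
      IsUnit t → (∀ j, (Pi.single none 1 : Option R → ℤ) (blP K π j) = 0 →
        w j = t (blP K π j) * w₀ j) → w j ≠ 0 := by
  obtain ⟨k, hk⟩ := ne_iff.1 h₀
  refine ⟨.inr k, by simp [blP], fun w hw t ht e => ?_⟩
  have a : w ∘ .inl = scl π (t ∘ some) (w₀ ∘ .inl) := funext fun j => e (.inl j) (by simp [blP])
  have b := congrFun (blE_spec hw) k
  rw [a, gv_scl hg (unit_option.1 ht).1] at b
  exact right_ne_zero_of_mul
    (ne_of_eq_of_ne b.symm (mul_ne_zero (cha_ne (unit_option.1 ht).1) hk))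

/-- A chart along a line in a fibre of the exceptional divisor. -/
theorem cht (h : Cut π A C δ g) (hA : PV π A n) (hC : PV π C m) (hy : y ∈ C) (hd : m + 2 ≤ n) :
    HasCht (blP K π) (blA A g) n (Pi.single none 1) (n - m - 1) := by
  obtain ⟨ψ, G, b, -, -⟩ := h.exists_blD hA hC hy
  obtain ⟨L, hL⟩ := (finrank_le_iff_exists_linearMap (R := ℂ) (M := Fin 2 → ℂ)
    (M' := Fin (n - m) → ℂ)).1 (by simp; omega)
  let κ : (Fin (n - m) ⊕ Unit ⊕ Fin (m + Fintype.card R) → ℂ) →L[ℂ]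
      (Fin (n - m) → ℂ) × ℂ × (Fin (m + Fintype.card R) → ℂ) :=
    (ContinuousLinearMap.pi fun i => .proj (.inl i)).prod
      ((ContinuousLinearMap.proj (.inr (.inl ()))).prod (.pi fun i => .proj (.inr (.inr i))))
  have ki : Injective κ := fun a a' e => funext fun i => by
    rcases i with i | _ | i
    exacts [congrFun (congrArg (·.1) e) i, congrArg (·.2.1) e, congrFun (congrArg (·.2.2) e) i]
  have p : ∀ v : Fin 2 → ℂ, v ≠ 0 → Prm (blA A g) (BlD.par ψ G) (κ (Sum.elim (L v) 0)) :=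
    fun v hv => b.prm_par ((map_ne_zero_iff _ hL).2 hv)
  refine ⟨Fin (n - m) ⊕ Unit ⊕ Fin (m + Fintype.card R), inferInstance,
    Sum.elim 1 (Sum.elim (-1) 0), fun z => BlD.par ψ G (κ z), fun v => Sum.elim (L v) 0,
    ⟨fun v _ => an_elim (L.toContinuousLinearMap.analyticAt v) analyticAt_const,
      fun c _ v _ i => ?_, fun v hv => (p v hv).an.comp (κ.analyticAt _),
      fun v hv => κ.continuous.continuousAt.eventually (p v hv).mem,
      fun c hc v _ => .of_forall fun z => ?_, fun v hv => ?_⟩, ?_, ?_⟩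
  · rcases i with i | i <;> simp
  · have e : κ (fun i => c ^ (Sum.elim 1 (Sum.elim (-1) 0) i : ℤ) * z i) =
        (c • (κ z).1, c⁻¹ * (κ z).2.1, (κ z).2.2) :=
      Prod.ext (funext fun i => by simp [κ]) (Prod.ext (by simp [κ]) (funext fun i => by simp [κ]))
    rw [e, BlD.par, BlD.par, scl_none, smul_smul, mul_right_comm, inv_mul_cancel₀ hc, one_mul,
      map_smul]
  · rw [fderiv_comp_an (p v hv).an (κ.analyticAt _), κ.fderiv]
    exact (p v hv).imm.comp ki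
  · simp only [Fintype.card_sum, Fintype.card_fin, Fintype.card_unit, Fintype.card_option]
    omega
  · simp [Nat.cast_sub (show m ≤ n by omega), sub_eq_add_neg]

end GeB

namespace Ctr

variable {n : ℕ} {Y : Var n} (c : Ctr Y)

/-- **The exceptional fibres of the master space.** -/
theorem rul : Rul c.Mπ c.MA (n + 1) Y.π c.C c.m (Fin (n - c.m))
    {w | w ∈ c.MA ∧ w ∘ .inl ∈ c.PC} (.inl ∘ .inl) (some ∘ some) (Pi.single none 1) := by
  obtain ⟨x, hx⟩ := c.conn.nonempty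
  have hd := c.cod
  have hy : Sum.elim x (fun b => cond b 0 1) ∈ c.PC :=
    ⟨hx, cond_ne.2 (.inr one_ne_zero), rfl⟩
  refine ⟨(Option.some_injective _).comp (Option.some_injective _), fun _ => rfl,
    ⟨{w | gv c.Pg (w ∘ .inl) = 0}, isClosed_eq (continuous_iff_continuousAt.2 fun w =>
      (an_gv' (an_inl w)).continuousAt) continuous_const,
      Set.ext fun w => and_congr_right fun a => c.cutP.zero _ a.1⟩,
    fun t ht w a => ⟨c.pvM.inv t ht w a.1, c.pvC.inv _ (unit_option.1 ht).1 _ a.2⟩,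
    fun _ a => a.2.1, fun _ => rfl, ?_,
    fun w a b => GeB.out c.cutP.hom fun e => b ⟨a, (c.cutP.zero _ a.1).2 e⟩, ?_⟩
  · obtain ⟨s, s1, s2, s3⟩ := GeB.fib (I := Option (Fin (n - c.m))) c.cutP (pvP Y) c.pvC hy
      (by rw [Fintype.card_option, Fintype.card_fin]; omega)
    refine ⟨x, none, s, s1, fun v _ => funext fun j => congrFun (s2 v) (.inl j), fun w a e => ?_⟩
    obtain ⟨x, t₁, t₀, u, ω, rfl⟩ := c.exists_pt w
    obtain rfl : x = _ := e
    obtain rfl : t₁ = 0 := a.2.2.2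
    have h0 : t₀ ≠ 0 := ne_of_pt a.2.2.1 a.2.2.2
    have d := c.pvM.inv _ (unit_el (inv_ne_zero h0) one_ne_zero) _ a.1
    rw [scl_el, mul_zero, inv_mul_cancel₀ h0, one_smul, one_smul] at d
    obtain ⟨v, v0, f⟩ := s3 _ d
    exact ⟨v, v0, f ▸ orb_pt.2 ⟨1, t₀, 1, isUnit_one, h0, one_ne_zero, (scl_one x).symm,
      (mul_zero _).symm, (mul_one _).symm, (one_smul _ _).symm, (one_smul _ _).symm⟩⟩
  · have := GeB.cht c.cutP (pvP Y) c.pvC hy (by omega)
    refine Eq.subst (motive := HasCht _ _ _ _) ?_ this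
    rw [Fintype.card_fin]
    omega

/-- The section over `(Y - Z) × ℙ¹`. -/
theorem sct_off : Sct (blP Bool Y.π) c.Mπ c.MA (Sum.elim (.inl ∘ .inl) fun b => .inl (.inr b))
    {q | q ∘ .inl ∈ Y.A \ c.C ∧ q ∘ .inr ≠ 0} fun q => Sum.elim q (gv c.Pg q) := by
  have e : (Sum.elim (.inl ∘ .inl) fun b => .inl (.inr b) : _ → c.MJ) = .inl :=
    funext fun j => j.rec (fun _ => rfl) fun _ => rfl
  have s : {q | q ∘ .inl ∈ Y.A \ c.C ∧ q ∘ .inr ≠ 0} ⊆ PA Y \ c.PC :=
    fun _ a => ⟨⟨a.1.1, a.2⟩, fun b => a.1.2 b.1⟩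
  exact e ▸ c.sct_gen.mono s Subset.rfl fun q a => c.sct_gen.mem q (s a)

theorem off_nhds {x : Y.J → ℂ} (h : x ∈ Y.A \ c.C) : Y.A \ c.C ∈ 𝓝[Y.A] x := by
  filter_upwards [self_mem_nhdsWithin, mem_nhdsWithin_of_mem_nhds
    ((an_gv c.g x).continuousAt.eventually_ne (mt (c.cut.zero x h.1).2 h.2))] with z a b
  exact ⟨a, mt (c.cut.zero z a).1 b⟩

theorem off_inv (t : Y.R → ℂ) (ht : IsUnit t) (x : Y.J → ℂ) (h : x ∈ Y.A \ c.C) :
    scl Y.π t x ∈ Y.A \ c.C :=
  ⟨Y.pv.inv t ht x h.1, mt (c.pv.toMC.mem_iff ht).1 h.2⟩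

theorem off_ne : (Y.A \ c.C).Nonempty :=
  let ⟨y, a, b⟩ := c.exists_off
  ⟨y, a, mt (c.cut.zero y a).1 b⟩

theorem blk_line (j : c.MJ) : c.Mπ j = c.Mπ (.inl (.inr true)) ↔
    j ∈ range fun b : Bool => (.inl (.inr b) : c.MJ) := by
  rcases j with (j | b) | k <;> simp [Mπ, blP]

/-- Off the centre the master space is a product with the line. -/
theorem genF' (h : c.BlM) : GenF (c.pY h) (fun b => .inl (.inr b)) (Y.A \ c.C)
    fun q => Sum.elim q (gv c.Pg q) :=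
  ⟨c.blk_line, nofun, sdiff_subset, fun _ => c.off_nhds, c.off_inv, c.off_ne, c.sct_off⟩

theorem genF (h : c.BlM) : ∃ s, GenF (c.pY h) (fun b => .inl (.inr b)) (Y.A \ c.C) s :=
  ⟨_, c.genF' h⟩

end Ctr

end Vale.Agent.P287Q
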