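import Vale.Agent.P287Q.Cnt.Rul
import Vale.Agent.P287Q.Cnt.Poly
import Vale.Agent.P287Q.Us.Sct

/-!
# The general fibre of a master space is a line
-/

namespace Vale.Agent.P287Q

open Set Function Topology Filter MvPolynomial P269.Holo

namespace GeA

theorem zpow_inj {a b : ℤ} (h : (2 : ℂ) ^ a = 2 ^ b) : a = b :=
  zpow_right_injective₀ (a := (2 : ℝ)) two_pos (by norm_num) (by simpa using congrArg norm h)

theorem whom_X {J R : Type} [Fintype J] [DecidableEq R] (π : J → R) (j : J) :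
    WHom (bw π) (Pi.single (π j) 1) (X j) := fun α hα i => by
  classical
  rw [support_X, Finset.mem_singleton] at hα
  simp [hα, Finsupp.single_apply, bw]

theorem inj_of {E F : Type} [NormedAddCommGroup E] [NormedSpace ℂ E] [NormedAddCommGroup F]
    [NormedSpace ℂ F] {f : E → F} {g : F → E} {u : E} (hf : AnalyticAt ℂ f u)
    (hg : AnalyticAt ℂ g (f u)) (h : ∀ᶠ w in 𝓝 u, g (f w) = w) : Injective (fderiv ℂ f u) :=
  LeftInverse.injective (g := fderiv ℂ g (f u)) fun v => congrArg (fun L => L v)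
    ((hg.differentiableAt.hasFDerivAt.comp u hf.differentiableAt.hasFDerivAt).unique
      ((hasFDerivAt_id u).congr_of_eventuallyEq h))

theorem an_elim {E α β : Type} [NormedAddCommGroup E] [NormedSpace ℂ E] [Fintype α] [Fintype β]
    {a : E → α → ℂ} {b : E → β → ℂ} {z : E} (ha : AnalyticAt ℂ a z) (hb : AnalyticAt ℂ b z) :
    AnalyticAt ℂ (fun z => Sum.elim (a z) (b z)) z :=
  AnalyticAt.pi (Sum.rec (analyticAt_pi_iff.1 ha) (analyticAt_pi_iff.1 hb))

theorem ne_zero {α : Type} {e : Bool → α} (he : Surjective e) {v : α → ℂ} (hv : v ≠ 0) :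
    (fun b => v (e b)) ≠ 0 := fun k => hv (funext (he.forall.2 (congrFun k)))

end GeA

namespace GenF

open GeA

variable {n : ℕ} {B : Var (n + 1)} {X : Var n} {p : Ext B X} {ab : Bool → B.J}
  {O : Set (X.J → ℂ)} {s : (X.J ⊕ Bool → ℂ) → B.J → ℂ} (h : GenF p ab O s) {x : X.J → ℂ}
  {u : Bool → ℂ} {w w' : B.J → ℂ}
include h

theorem hom (hx : x ∈ O) (hu : u ≠ 0) {c : ℂ} (hc : c ≠ 0) :
    s (Sum.elim x (c • u)) = scl B.π (fun r => c ^ h.deg r) (s (Sum.elim x u)) := by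
  have e := h.sct.eqv.choose_spec (fun o => o.elim c 1)
    (unit_iff.2 (Option.rec hc fun _ => one_ne_zero)) (Sum.elim x u) ⟨hx, hu⟩
  rw [show scl (blP Bool X.π) (fun o => o.elim c 1) (Sum.elim x u) = Sum.elim x (c • u) from
    funext (Sum.rec (fun _ => one_mul _) fun _ => rfl)] at e
  simpa [Fintype.prod_option, deg] using e

theorem an {E : Type} [NormedAddCommGroup E] [NormedSpace ℂ E] {k : E → X.J → ℂ}
    {v : E → Bool → ℂ} {z : E} (hk : AnalyticAt ℂ k z) (hv : AnalyticAt ℂ v z)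
    (h1 : ∀ᶠ y in 𝓝 z, k y ∈ O) (h2 : v z ≠ 0) :
    AnalyticAt ℂ (fun y => s (Sum.elim (k y) (v y))) z := by
  obtain ⟨Φ, a, b⟩ := h.sct.hol (Sum.elim (k z) (v z)) ⟨h1.self_of_nhds, h2⟩
  refine (a.comp_of_eq (an_elim hk hv) rfl).congr ?_
  filter_upwards [(an_elim hk hv).continuousAt.eventually b, h1,
    hv.continuousAt.eventually_ne h2] with y e1 e2 e3 using (e1 ⟨e2, e3⟩).symm

theorem an_crd (hx : x ∈ O) (j : B.J) (v : Bool → ℂ) (hv : v ≠ 0) :
    AnalyticAt ℂ (fun v => s (Sum.elim x v) j) v :=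
  analyticAt_pi_iff.1 (h.an analyticAt_const analyticAt_id (.of_forall fun _ => hx) hv) j

theorem mem (hx : x ∈ O) (hu : u ≠ 0) : s (Sum.elim x u) ∈ B.A := h.sct.mem _ ⟨hx, hu⟩

theorem at_iJ (hx : x ∈ O) (hu : u ≠ 0) (j : X.J) : s (Sum.elim x u) (p.iJ j) = x j :=
  congrFun (h.sct.inv (Sum.elim x u) ⟨hx, hu⟩) (.inl j)

theorem at_ab (hx : x ∈ O) (hu : u ≠ 0) (b : Bool) : s (Sum.elim x u) (ab b) = u b :=
  congrFun (h.sct.inv (Sum.elim x u) ⟨hx, hu⟩) (.inr b)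

theorem ab_ne (hw : w ∈ B.A) : w ∘ ab ≠ 0 := fun k => by
  obtain ⟨j, a, b⟩ := B.pv.sub hw (B.π (ab true))
  obtain ⟨i, rfl⟩ := (h.blk j).1 a
  exact b (congrFun k i)

theorem orb (hw : w ∈ B.A) (hx : w ∘ p.iJ ∈ O) : Orb B.π (s (Sum.elim (w ∘ p.iJ) (w ∘ ab))) w :=
  Sum.comp_elim w p.iJ ab ▸ h.sct.orb w hw ⟨hx, h.ab_ne hw⟩

theorem deg_iR (r : X.R) : h.deg (p.iR r) = 0 := by
  obtain ⟨x, hx⟩ := h.ne
  obtain ⟨j, rfl, a⟩ := X.pv.sub (h.sub hx) r
  have e := congrFun (h.hom hx one_ne_zero two_ne_zero) (p.iJ j)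
  rw [scl, h.at_iJ hx one_ne_zero, h.at_iJ hx (smul_ne_zero two_ne_zero one_ne_zero), p.blk] at e
  exact zpow_inj (mul_right_cancel₀ a (by rw [← e, zpow_zero, one_mul]))

theorem deg_ab : h.deg (B.π (ab true)) = 1 := by
  obtain ⟨x, hx⟩ := h.ne
  have e := congrFun (h.hom hx one_ne_zero two_ne_zero) (ab true)
  rw [scl, h.at_ab hx one_ne_zero, h.at_ab hx (smul_ne_zero two_ne_zero one_ne_zero)] at e
  exact zpow_inj (by simpa using e.symm)

theorem deg_nonneg (r : B.R) : 0 ≤ h.deg r := by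
  obtain ⟨x, hx⟩ := h.ne
  obtain ⟨j, rfl, a⟩ := B.pv.sub (h.mem hx one_ne_zero) r
  obtain ⟨q, h1, h2⟩ := P269.Cnt.exists_poly (n := h.deg (B.π j)) (h.an_crd hx j)
    fun c hc v hv => congrFun (h.hom hx hv hc) j
  obtain ⟨α, hα⟩ := support_nonempty.2 fun e : q = 0 => a (by rw [← h2 1 one_ne_zero, e, map_zero])
  exact h1 α hα ▸ Int.natCast_nonneg _

theorem deg_ne (hw : w ∈ B.A) (hw' : w' ∈ B.A) (hx : w ∘ p.iJ ∈ O) (e : w ∘ p.iJ = w' ∘ p.iJ)
    (j : B.J) (h0 : w j = 0) (h1 : w' j ≠ 0) : h.deg (B.π j) ≠ 0 := fun k => by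
  refine h1 (((h.orb hw' (e ▸ hx)).zero_iff j).2 ?_)
  rw [← e, ← ((h.orb hw hx).zero_iff j).1 h0]
  exact P269.Cnt.Poly.const (h.an_crd hx j)
    (fun c hc v hv => by rw [h.hom hx hv hc, scl, k, zpow_zero, one_mul]) (h.ab_ne hw') (h.ab_ne hw)

theorem fbl (hx : x ∈ O) : FbL B.π B.A B.A p.iJ h.deg x (B.π (ab true)) (I := Option Unit)
    fun v => s (Sum.elim x fun b => v (cond b none (some ()))) := by
  have e : Surjective fun b => cond b none (some ()) := fun a => ⟨a.isNone, by cases a <;> rfl⟩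
  refine ⟨⟨fun v hv => h.an analyticAt_const (an_comp_crd _ v) (.of_forall fun _ => hx)
    (ne_zero e hv), fun v hv => h.mem hx (ne_zero e hv), fun c hc v hv => h.hom hx (ne_zero e hv) hc,
    h.deg_ab, fun a => ⟨.X (ab a.isNone), (h.blk _).2 (mem_range_self a.isNone) ▸ whom_X _ _,
      fun v hv => ?_⟩⟩, fun v hv => funext (h.at_iJ hx (ne_zero e hv)), fun w hw k => ?_⟩
  · rw [eval_X, h.at_ab hx (ne_zero e hv)]
    cases a <;> rfl
  · have k1 : (fun b => w (ab (cond b none (some ())).isNone)) = w ∘ ab :=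
      funext fun b => by cases b <;> rfl
    refine ⟨fun a => w (ab a.isNone), fun d => h.ab_ne hw (k1 ▸ funext fun b => congrFun d _), ?_⟩
    rw [k1, ← k]
    exact h.orb hw (k ▸ hx)

theorem cht : HasCht B.π B.A (n + 1) h.deg 2 := by
  classical
  obtain ⟨x, hx⟩ := h.ne
  obtain ⟨ψ, hψ, e0⟩ := (X.pv.mfd x (h.sub hx)).prm
  obtain ⟨ω, w1, w2, w3, -⟩ := hψ.exists_inv
  have hO : ∀ᶠ z in 𝓝 0, ψ z ∈ O := hψ.ev.2 (e0 ▸ eventually_nhdsWithin_iff.1 (h.opn x hx))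
  let ρ : Option X.R → B.R := fun o => o.elim (B.π (ab true)) p.iR
  have hρ : Injective ρ := by
    rintro (_ | a) (_ | b) e
    exacts [rfl, (h.out ⟨b, e.symm⟩).elim, (h.out ⟨a, e⟩).elim, congrArg _ (p.injR e)]
  let I := Fin (n + Fintype.card X.R) ⊕ Bool ⊕ {r // r ∉ range ρ}
  let τ : (I → ℂ) → B.R → ℂ := fun y r => if k : r ∈ range ρ then 1 else y (.inr (.inr ⟨r, k⟩))
  let S : (I → ℂ) → B.J → ℂ := fun y => s (Sum.elim (ψ (y ∘ .inl)) (y ∘ .inr ∘ .inl))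
  let c : (Fin 2 → ℂ) → I → ℂ := fun v => Sum.elim 0 (Sum.elim (fun b => v (cond b 0 1)) 1)
  have e : Surjective fun b => cond b (0 : Fin 2) 1 :=
    Fin.forall_fin_two.2 ⟨⟨true, rfl⟩, ⟨false, rfl⟩⟩
  have a1 : ∀ y, AnalyticAt ℂ τ y := fun y => AnalyticAt.pi fun r => by
    by_cases k : r ∈ range ρ
    · simpa only [τ, dif_pos k] using analyticAt_const
    · simp only [τ, dif_neg k]
      exact analyticAt_pi_iff.1 analyticAt_id _
  have a2 : ∀ v, τ (c v) = 1 := fun v => funext fun r => dite_eq_ite.trans (ite_self _)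
  have a3 : ∀ v ≠ 0, ∀ᶠ y in 𝓝 (c v), ψ (y ∘ .inl) ∈ O ∧ y ∘ .inr ∘ .inl ≠ 0 := fun v hv =>
    ((an_comp_crd .inl (c v)).continuousAt.eventually hO).and
      ((an_comp_crd _ (c v)).continuousAt.eventually_ne (ne_zero e hv))
  have a4 : ∀ v ≠ 0, AnalyticAt ℂ S (c v) := fun v hv =>
    h.an (hψ.an.comp_of_eq (an_comp_crd .inl (c v)) rfl) (an_comp_crd _ _)
      ((a3 v hv).mono fun _ k => k.1) (ne_zero e hv)
  refine ⟨I, inferInstance, Sum.elim 0 (Sum.elim 1 0), fun y => scl B.π (τ y) (S y), c,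
    ⟨fun v _ => an_elim analyticAt_const (an_elim (an_comp_crd _ v) analyticAt_const),
      fun t _ v _ => ?_, fun v hv => an_scl (a1 _) (a4 v hv), fun v hv => ?_, fun t ht v hv => ?_,
      fun v hv => ?_⟩, ?_, by simp [I]⟩
  · rintro (i | i | i) <;> simp [c]
  · filter_upwards [a3 v hv, (a1 (c v)).continuousAt.eventually
      (eventually_unit (a2 v ▸ isUnit_one))] with y k1 k2 using B.pv.inv _ k2 _ (h.mem k1.1 k1.2)
  · filter_upwards [a3 v hv] with y k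
    rw [← scl_mul, mul_comm, scl_mul, ← h.hom k.1 k.2 ht]
    refine congrArg₂ (scl B.π) (funext fun r => dite_congr rfl (fun _ => rfl) fun _ => by simp)
      (congrArg s (congrArg₂ Sum.elim (congrArg ψ (funext fun i => by simp))
        (funext fun i => by simp)))
  · have k0 := (a3 v hv).self_of_nhds
    choose j j1 j2 using B.pv.sub (h.mem k0.1 k0.2)
    have b1 : ∀ᶠ y in 𝓝 (c v), scl B.π (τ y) (S y) ∘ p.iJ = ψ (y ∘ .inl) ∧
        scl B.π (τ y) (S y) ∘ ab = y ∘ .inr ∘ .inl := (a3 v hv).mono fun y k =>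
      ⟨funext fun i => (congrArg₂ (· * ·) (dif_pos ⟨some (X.π i), (p.blk i).symm⟩)
        (h.at_iJ k.1 k.2 i)).trans (one_mul _), funext fun i => (congrArg₂ (· * ·)
        (dif_pos ⟨none, ((h.blk _).2 ⟨i, rfl⟩).symm⟩) (h.at_ab k.1 k.2 i)).trans (one_mul _)⟩
    obtain ⟨b2, b3⟩ := b1.self_of_nhds
    have b4 : AnalyticAt ℂ (fun w => ω (w ∘ p.iJ)) (scl B.π (τ (c v)) (S (c v))) :=
      w1.comp_of_eq (an_comp_crd _ _) b2
    have b5 : ω (scl B.π (τ (c v)) (S (c v)) ∘ p.iJ) = 0 := (congrArg ω b2).trans w2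
    refine inj_of (g := fun w => Sum.elim (ω (w ∘ p.iJ)) (Sum.elim (w ∘ ab) fun r =>
      w (j r.1) / s (Sum.elim (ψ (ω (w ∘ p.iJ))) (w ∘ ab)) (j r.1))) (an_scl (a1 _) (a4 v hv))
      (an_elim b4 (an_elim (an_comp_crd _ _) (AnalyticAt.pi fun r =>
        (analyticAt_pi_iff.1 analyticAt_id _).fun_div (analyticAt_pi_iff.1 (h.an
          (hψ.an.comp_of_eq b4 b5) (an_comp_crd ab _) (b4.continuousAt.eventually (b5 ▸ hO))
          (b3 ▸ k0.2)) (j r.1)) (by rw [b5, b3]; exact j2 _)))) ?_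
    filter_upwards [b1, (an_comp_crd .inl (c v)).continuousAt.eventually w3, eventually_all.2
      fun r => (analyticAt_pi_iff.1 (a4 v hv) (j r)).continuousAt.eventually_ne (j2 r)]
      with y k1 k2 k3
    rw [k1.1, k1.2, k2]
    funext i
    rcases i with i | i | i
    exacts [rfl, rfl, (div_eq_iff (k3 i)).2 (congrArg (· * _) (by rw [j1]; exact dif_neg i.2))]
  · have k1 := Fintype.card_subtype_compl (· ∈ range ρ)
    have k2 := Fintype.card_subtype_le (· ∈ range ρ)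
    have k3 : Fintype.card {r // r ∈ range ρ} = Fintype.card X.R + 1 :=
      (Fintype.card_congr (Equiv.ofInjective ρ hρ)).symm.trans Fintype.card_option
    simp only [I, Fintype.card_sum, Fintype.card_fin, Fintype.card_bool]
    omega

theorem rul : Rul B.π B.A (n + 1) X.π X.A n Unit B.A p.iJ p.iR h.deg :=
  ⟨p.injR, p.blk, ⟨univ, isClosed_univ, (inter_univ _).symm⟩, B.pv.inv, p.map, h.deg_iR,
    h.ne.elim fun x hx => ⟨x, _, _, h.fbl hx⟩, fun _ a b => (b a).elim,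
    (by simp : (2 : ℤ) = n + (2 * Fintype.card Unit + 1) - (n + 1 : ℕ)) ▸ h.cht⟩

end GenF

end Vale.Agent.P287Q
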