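import Vale.Agent.P269.P1.Mon
import Vale.Agent.P269.Pt.Bnd
import Vale.Agent.P269.Pt.Iso
import Vale.Agent.P269.Pt.Cmp

/-!
# Maps into a linear fibre: gauges and degrees
-/

set_option linter.unusedSectionVars false

namespace Vale.Agent.P269

open P291Z Set Function Topology Filter Cv MvPolynomial

variable {S Λ R J K I ν κ : Type} [Fintype S] [Fintype Λ] [Fintype R] [Fintype J] [Fintype K]
  [Fintype I] [Fintype ν] [Fintype κ]

namespace Cnt

/-- the values of a family of polynomials -/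
noncomputable def sv (σ : J → MvPolynomial I ℂ) (v : I → ℂ) : J → ℂ := fun j => eval v (σ j)

/-- `p` has weight `c` -/
def Wp (w : J → R → ℤ) (c : R → ℤ) (p : MvPolynomial J ℂ) : Prop :=
  ∀ α ∈ p.support, ∀ r, ∑ j, α j * w j r = c r

theorem Wp.eval_mul {w : J → R → ℤ} {c : R → ℤ} {p : MvPolynomial J ℂ} (h : Wp w c p) {t : R → ℂ}
    (ht : ∀ r, t r ≠ 0) (y : J → ℂ) :
    eval (fun j => (∏ r, t r ^ w j r) * y j) p = (∏ r, t r ^ c r) * eval y p := by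
  simp only [eval_eq', Finset.mul_sum]
  refine Finset.sum_congr rfl fun α hα => ?_
  simp only [mul_pow, Finset.prod_mul_distrib, prod_pow_zpow ht, h α hα]
  ring

theorem eval_act {W : Wt S Λ R J} {c : R → ℤ} {ψ : S → ℤ} {p : MvPolynomial J ℂ} (h : Wp W.w c p)
    (h' : Wp W.wt ψ p) {t : (S → ℂ) × (R → ℂ)} (ht : IsUnit t) (z : (Λ → ℂ) × (J → ℂ)) :
    eval (W.actT t z).2 p = (∏ i, t.1 i ^ ψ i) * (∏ r, t.2 r ^ c r) * eval z.2 p := by
  rw [mul_assoc, ← h.eval_mul (isUnit_pi_iff.1 (Prod.isUnit_iff.1 ht).2),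
    ← h'.eval_mul (isUnit_pi_iff.1 (Prod.isUnit_iff.1 ht).1)]
  exact congrArg (eval · p) (funext fun j => mul_assoc _ _ _)

theorem act1 (W : Wt S Λ R J) (t : R → ℂ) (z : (Λ → ℂ) × (J → ℂ)) :
    W.actT (1, t) z = (z.1, fun j => (∏ r, t r ^ W.w j r) * z.2 j) :=
  Prod.ext (W.actL_one _) (funext fun j => by simp [Wt.actT])

theorem unit1 {t : R → ℂ} (ht : ∀ r, t r ≠ 0) : IsUnit ((1, t) : (S → ℂ) × (R → ℂ)) :=
  Prod.isUnit_iff.2 ⟨isUnit_one, isUnit_pi_iff.2 ht⟩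

theorem zpow_dot {s : ℂ} (hs : s ≠ 0) (φ c : R → ℤ) : ∏ r, (s ^ φ r) ^ c r = s ^ (c ⬝ᵥ φ) := by
  rw [dotProduct, zpow_sum_ne hs]
  exact Finset.prod_congr rfl fun r _ => by rw [← zpow_mul, mul_comm]

section cv

variable {X : Type} [TopologicalSpace X] [T2Space X] [CompactSpace X] {Q : RS X}
  {N : Finset (X × X)}

theorem mono_mem {L : R → LB Q} {w : J → R → ℤ} {y : J → X → ℂ} (hy : ∀ j, y j ∈ H0 N (bz L (w j)))
    {α : J → ℕ} {c : R → ℤ} (h : ∀ i, ∑ j, α j * w j i = c i) : ∏ j, y j ^ α j ∈ H0 N (bz L c) := by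
  have e : c = ∑ j, (α j : ℤ) • w j := funext fun i => by simp [← h i]
  rw [e, bz_sum]
  exact H0.prod_mem fun j _ => by
    rw [bz_smul, zpow_natCast]
    exact H0.pow_mem (hy j) _

theorem Wp.mem {L : R → LB Q} {w : J → R → ℤ} {y : J → X → ℂ} (hy : ∀ j, y j ∈ H0 N (bz L (w j)))
    {c : R → ℤ} {p : MvPolynomial J ℂ} (h : Wp w c p) :
    (fun z => eval (fun j => y j z) p) ∈ H0 N (bz L c) := by
  rw [show (fun z => eval (fun j => y j z) p) = ∑ a ∈ p.support, p.coeff a • ∏ j, y j ^ a j from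
    funext fun z => by simp [eval_eq']]
  exact Submodule.sum_mem _ fun a ha => Submodule.smul_mem _ _ (mono_mem hy (h a ha))

theorem bz_pow (M : LB Q) (φ c : R → ℤ) : bz (fun r => M ^ φ r) c = M ^ (c ⬝ᵥ φ) := by
  classical
  simp only [bz, ← zpow_mul, dotProduct, mul_comm (φ _)]
  exact Finset.induction_on Finset.univ (by simp) fun j s h e => by
    rw [Finset.sum_insert h, Finset.prod_insert h, zpow_add, e]

theorem sv_mem {M : LB Q} {u : I → X → ℂ} (hu : ∀ a, u a ∈ H0 N M) {p : MvPolynomial I ℂ} {n : ℤ}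
    (h : ∀ α ∈ p.support, (∑ o, α o : ℕ) = n) : (fun z => eval (fun a => u a z) p) ∈ H0 N (M ^ n) := by
  have := Wp.mem (L := fun _ : Unit => M) (w := fun _ _ => 1) (c := fun _ => n) (p := p)
    (fun a => by simpa [bz] using hu a) fun α a _ => by simpa using h α a
  simpa [bz] using this

end cv

end Cnt

open Cnt

/-- The linear space parametrised by `σ`. -/
def Wt.lin (W : Wt S Λ R J) (l : Λ → ℂ) (σ : J → MvPolynomial I ℂ) : Set ((Λ → ℂ) × (J → ℂ)) :=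
  {z | ∃ t, IsUnit t ∧ ∃ v ≠ 0, z = W.actT t (l, sv σ v)}

/-- `σ` parametrises a linear space in the member `l`, the lines have class `φ`, and the polynomials
`f a` of weights `ψ a`, `c` restrict to the homogeneous coordinates. -/
structure Fam.Lin (F : Fam S Λ R J K) (l : Λ → ℂ) (φ c : R → ℤ) (ψ : I → S → ℤ)
    (f : I → MvPolynomial J ℂ) (σ : J → MvPolynomial I ℂ) : Prop where
  hom : ∀ j, ∀ α ∈ (σ j).support, (∑ o, α o : ℕ) = F.w j ⬝ᵥ φ
  wf : ∀ a, Wp F.w c (f a)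
  wf' : ∀ a, Wp F.wt (ψ a) (f a)
  one : c ⬝ᵥ φ = 1
  inv : ∀ a v, eval (sv σ v) (f a) = v a
  mem : ∀ v ≠ 0, (l, sv σ v) ∈ F.cone

variable [DecidableEq R] {F : Fam S Λ R J K} {m : AM Λ R J ν κ}

/-- a pointwise gauge between two maps is holomorphic -/
theorem Cnt.gauge_mem (hF : F.Good) {X : Type} [TopologicalSpace X] [T2Space X] [CompactSpace X]
    {Q : RS X} {L L' : R → LB Q} {y y' : J → X → ℂ} (hy : ∀ j, y j ∈ (bz L (F.w j)).Γ)
    (hy' : ∀ j, y' j ∈ (bz L' (F.w j)).Γ) {l : Λ → ℂ} (hc : ∀ x, (l, fun j => y' j x) ∈ F.cone)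
    {τ : R → X → ℂ} (h0 : ∀ r x, τ r x ≠ 0) (e : ∀ j x, y j x = (∏ r, τ r x ^ F.w j r) * y' j x)
    (r : R) : τ r ∈ (L r / L' r).Γ := fun x => by
  obtain ⟨θ₀, n, hA⟩ := hF.ample
  have k : ∀ c : R → ℤ, (c = n • θ₀ ∨ ∃ i, c = n • θ₀ + Pi.single i 1 ∨ c = n • θ₀ - Pi.single i 1) →
      (bz L c / bz L' c).Sec (fun x => ∏ r, τ r x ^ c r) x := fun c hc' => by
    obtain ⟨α, a, b⟩ := hA.2.2 c hc' _ (hc x)
    have a1 := (mono_mem (N := ∅) (fun j => H0_empty.ge (hy j)) a).1 x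
    have a2 := (mono_mem (N := ∅) (fun j => H0_empty.ge (hy' j)) a).1 x
    have a3 : (∏ j, y' j ^ α j) x ≠ 0 := by simpa using b
    refine (a1.div a2 a3).congr ((a2.ev_ne a3).mono fun z hz => ?_)
    rw [Pi.div_apply, div_eq_iff hz]
    simp only [Finset.prod_apply, Pi.pow_apply, e, mul_pow, Finset.prod_mul_distrib,
      prod_pow_zpow (h0 · z), a]
  have a := (k _ (.inr ⟨r, .inl rfl⟩)).div (k _ (.inl rfl)) (prod_zpow_ne (h0 · x) _)
  rw [bz_add, bz_add, bz_single, bz_single, zpow_one, zpow_one, mul_div_mul_comm,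
    mul_div_cancel_left] at a
  refine a.congr (.of_forall fun z => ?_)
  simp only [Pi.div_apply, Pi.add_apply, zpow_add₀ (h0 _ z), Finset.prod_mul_distrib]
  rw [mul_div_cancel_left₀ _ (prod_zpow_ne (h0 · z) _), Finset.prod_eq_single r
    (fun b _ h => by simp [h]) (by simp)]
  simp

namespace Fam.Lin

variable {l : Λ → ℂ} {φ c : R → ℤ} {ψ : I → S → ℤ} {f : I → MvPolynomial J ℂ}
  {σ : J → MvPolynomial I ℂ} (h : F.Lin l φ c ψ f σ)
include h

theorem sv_smul {s : ℂ} (hs : s ≠ 0) (v : I → ℂ) (j : J) :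
    sv σ (s • v) j = s ^ (F.w j ⬝ᵥ φ) * sv σ v j := by
  have := Wp.eval_mul (w := fun (_ : I) (_ : Unit) => 1) (c := fun _ => F.w j ⬝ᵥ φ) (p := σ j)
    (fun α a _ => by simpa using h.hom j α a) (t := fun _ => s) (fun _ => hs) v
  simp only [Finset.univ_unique, zpow_one, Finset.prod_singleton] at this
  exact this

theorem sub (hF : F.Inv) : F.lin l σ ⊆ F.cone := by
  rintro _ ⟨t, a, v, b, rfl⟩
  exact hF.cone_act a (h.mem v b)

omit h in
theorem act_mem {t : (S → ℂ) × (R → ℂ)} (ht : IsUnit t) {z} (hz : z ∈ F.lin l σ) :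
    F.actT t z ∈ F.lin l σ :=
  let ⟨s, a, v, b, e⟩ := hz
  ⟨t * s, ht.mul a, v, b, by rw [e, F.actT_mul]⟩

/-- the normal form of the points of the linear space -/
theorem nf (hF : F.Good) {y : J → ℂ} (hy : (l, y) ∈ F.lin l σ) : (fun a => eval y (f a)) ≠ 0 ∧
    ∃ t : R → ℂ, (∀ r, t r ≠ 0) ∧
      ∀ j, y j = (∏ r, t r ^ F.w j r) * sv σ (fun a => eval y (f a)) j := by
  obtain ⟨⟨τ, t⟩, a, v, b, e⟩ := hy
  obtain rfl : τ = 1 := hF.freeB _ (Prod.isUnit_iff.1 a).1 l (h.mem v b).1 (congrArg Prod.fst e).symm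
  have t0 := isUnit_pi_iff.1 (Prod.isUnit_iff.1 a).2
  have s0 := prod_zpow_ne t0 c
  obtain rfl : y = _ := congrArg Prod.snd (e.trans (act1 _ _ _))
  have e1 : (fun a => eval (fun j => (∏ r, t r ^ F.w j r) * sv σ v j) (f a)) = (∏ r, t r ^ c r) • v :=
    funext fun a => by rw [(h.wf a).eval_mul t0, h.inv]; rfl
  rw [e1]
  refine ⟨smul_ne_zero s0 b, fun r => t r / (∏ r, t r ^ c r) ^ φ r,
    fun r => div_ne_zero (t0 r) (zpow_ne_zero _ s0), fun j => ?_⟩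
  simp only [div_zpow, Finset.prod_div_distrib, zpow_dot s0, h.sv_smul s0]
  rw [← mul_assoc, div_mul_cancel₀ _ (zpow_ne_zero _ s0)]

omit h in
variable (f m) in
/-- the homogeneous coordinates of a map -/
noncomputable def _root_.Vale.Agent.P269.AM.co (a : I) (z : m.X) : ℂ := eval (m.vl z).2 (f a)

theorem co_mem (hm : m.Sec F.toWt) (a : I) : m.co f a ∈ H0 m.N (bz m.L c) := (h.wf a).mem hm

/-- **the gauge of a map into the linear space** -/
theorem gauge (hF : F.Good) (hm : m.Sec F.toWt) (hl : m.l = l) (hv : ∀ z, m.vl z ∈ F.lin l σ) :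
    (∀ z, ∃ a, m.co f a z ≠ 0) ∧ ∃ τ : R → m.X → ℂ, (∀ r z, τ r z ≠ 0) ∧
      (∀ r, τ r ∈ (m.L r / bz m.L c ^ φ r).Γ) ∧
      ∀ j z, m.y j z = (∏ r, τ r z ^ F.w j r) * sv σ (fun a => m.co f a z) j := by
  subst hl
  choose a t b e using fun z => h.nf hF (hv z)
  refine ⟨fun z => ne_iff.1 (a z), fun r z => t z r, fun r z => b z r, gauge_mem hF
    (y' := fun j z => sv σ (fun a => m.co f a z) j) (fun j => (hm j).1)
    (fun j => bz_pow (bz m.L c) φ _ ▸ (sv_mem (h.co_mem hm) (h.hom j)).1) (fun z => h.mem _ (a z))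
    (fun r z => b z r) fun j z => e z j, fun j z => e z j⟩

theorem degOn_bz (hF : F.Good) (hm : m.Sec F.toWt) (hl : m.l = l) (hv : ∀ z, m.vl z ∈ F.lin l σ)
    (e : R → ℤ) (U : Set m.X) : degOn (bz m.L e) U = degOn (bz m.L c) U * (e ⬝ᵥ φ) := by
  obtain ⟨-, τ, a, b, -⟩ := h.gauge hF hm hl hv
  rw [Cv.degOn_bz m.L e, dotProduct, Finset.mul_sum]
  refine Finset.sum_congr rfl fun r _ => ?_
  have := degOn_of_ne (U := U) (fun x _ => b r x) fun x _ => a r x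
  rw [degOn_div, degOn_zpow, sub_eq_zero] at this
  rw [this]
  ring

theorem ge_zero (hF : F.Good) (hm : m.Sec F.toWt) (hl : m.l = l) (hv : ∀ z, m.vl z ∈ F.lin l σ) :
    Ge (bz m.L c) 0 :=
  ge_of_bpf fun z => ((h.gauge hF hm hl hv).1 z).elim fun a b => ⟨_, (h.co_mem hm a).1, b⟩

/-- reduction to the parameter `l` -/
theorem exists_scl (hF : F.Good) (hm : m.Sol F) (z₀ : m.X) (hv : ∀ z, m.vl z ∈ F.lin l σ) :
    ∃ τ, IsUnit τ ∧ (m.scl F.toWt τ).l = l ∧ ∀ z, (m.scl F.toWt τ).vl z ∈ F.lin l σ := by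
  have _ := hF
  have _ := hm
  obtain ⟨t, a, v, -, e⟩ := hv z₀
  obtain ⟨τ, b⟩ := (Prod.isUnit_iff.1 a).1.exists_left_inv
  have u := IsUnit.of_mul_eq_one _ b
  refine ⟨τ, u, ?_, fun z => ?_⟩
  · exact (congrArg (F.actL τ) (congrArg Prod.fst e)).trans
      ((F.actL_mul _ _ _).symm.trans (b ▸ F.actL_one l))
  · have := act_mem (t := (τ, 1)) (Prod.isUnit_iff.2 ⟨u, isUnit_one⟩) (hv z)
    simpa [Wt.actT, AM.vl, AM.scl] using this

/-- **the degree of a map into the linear space** -/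
theorem exists_deg (hF : F.Good) (hm : m.Sol F) {g : ℤ} {d : R → ℤ} (ht : m.Typ g d)
    (hv : ∀ z, m.vl z ∈ F.lin l σ) : ∃ k : ℕ, d = k • φ := by
  rcases isEmpty_or_nonempty m.X with e | ⟨⟨z₀⟩⟩
  · exact ⟨0, funext fun r => by
      rw [← ht.2, ← degOn_univ, univ_eq_empty_iff.2 e, degOn_empty, zero_smul, Pi.zero_apply]⟩
  obtain ⟨τ, a, b, e⟩ := h.exists_scl hF hm z₀ hv
  have i := AM.iso_scl (F := F.toWt) (A := univ) (m := m) a
  obtain ⟨k, hk⟩ := Int.eq_ofNat_of_zero_le ((h.ge_zero hF (i.sec hm.2.1) b e).nonneg univ)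
  refine ⟨k, funext fun r => ?_⟩
  have := h.degOn_bz hF (i.sec hm.2.1) b e (Pi.single r 1) univ
  rw [hk, bz_single, zpow_one, degOn_univ, (i.typ ht).2] at this
  simpa using this

end Fam.Lin

namespace Cnt

/-- A section of a bundle of degree zero on all components has no zero or vanishes. -/
theorem ne_of_sat {c : AC ν κ} {L : LB c.R} {s : c.X → ℂ} {T : Set c.X} (hT : c.Sat T)
    (hL : ∀ U, IsClopen U → U ⊆ T → degOn L U = 0) (h1 : s ∈ L.Γ) (h2 : ∀ n ∈ c.N, s n.1 = s n.2)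
    {x y : c.X} (hxT : x ∈ T) (hx : s x ≠ 0) (hy : y ∈ c.cmp x) : s y ≠ 0 := by
  have u := hT.1.inter (isClopen_gen h1)
  have k : ∀ z ∈ T, z ∈ Gen s ↔ s z ≠ 0 := fun z a => ⟨fun hz h0 => by
    have := card_le_degOn u (fun x _ => h1 x) inter_subset_right (T := {z})
      (by simpa using ⟨⟨a, hz⟩, h0⟩)
    rw [hL _ u inter_subset_left] at this
    simp at this, (h1 z).mem_gen⟩
  have := (AC.sat_iff.2 ⟨u, fun n hn => and_congr (((AC.sat_iff.1 hT).2 n hn)) Iff.rfl |>.trans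
    (and_congr_right fun a => by
      rw [k _ a, k _ (((AC.sat_iff.1 hT).2 n hn).2 a), h2 n hn])⟩).cmp_subset
    ⟨hxT, (k x hxT).2 hx⟩ hy
  exact (k y this.1).1 this.2

/-- **constancy**: sections without common zero of a bundle of degree zero are proportional -/
theorem exists_prop {I₀ : Type} {L : LB m.R} {s : I₀ → m.X → ℂ} (hc : m.Conn) (hL : deg L = 0)
    (hs : ∀ i, s i ∈ H0 m.N L) (h0 : ∀ z, ∃ i, s i z ≠ 0) (z z' : m.X) :
    ∃ a ≠ 0, ∀ i, s i z' = a * s i z := by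
  have g : Ge L 0 := ge_of_bpf fun z => (h0 z).elim fun i b => ⟨_, (hs i).1, b⟩
  obtain ⟨i, hi⟩ := h0 z
  have n : ∀ y, s i y ≠ 0 := fun y => ne_of_sat AC.sat_univ
    (fun U a _ => le_antisymm (hL ▸ g.le_deg a) (g.nonneg U)) (hs i).1 (hs i).2 trivial hi
    (hc.cmp_eq z ▸ mem_univ y)
  refine ⟨s i z' / s i z, div_ne_zero (n _) hi, fun j => ?_⟩
  have a := H0.mul_mem (hs j) (H0.inv_mem (hs i) n)
  rw [mul_inv_cancel] at a
  have b := AC.eq_of_mem_cmp a (hc.cmp_eq z ▸ mem_univ z')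
  simp only [Pi.mul_apply, Pi.inv_apply] at b
  have := n z'
  field_simp at b ⊢
  exact b

/-- **constancy** for polynomials without common zero on the cone -/
theorem exists_prop_wp {I₀ : Type} {p : I₀ → MvPolynomial J ℂ} {e d : R → ℤ} {g : ℤ}
    (hp : ∀ i, Wp F.w e (p i)) (h0 : ∀ z ∈ F.cone, ∃ i, eval z.2 (p i) ≠ 0) (hm : m.Sol F)
    (hc : m.Conn) (ht : m.Typ g d) (hd : e ⬝ᵥ d = 0) (z z' : m.X) :
    ∃ a ≠ 0, ∀ i, eval (m.vl z').2 (p i) = a * eval (m.vl z).2 (p i) :=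
  exists_prop (L := bz m.L e) (s := fun i z => eval (fun j => m.y j z) (p i)) hc
    ((ht.deg_bz e).trans hd) (fun i => (hp i).mem hm.2.1) (fun z => h0 (m.vl z) (hm.2.2 z)) z z'

end Cnt

end Vale.Agent.P269
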