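import Vale.Agent.P287Q.G.Vir.Defs
import Vale.Agent.P269.Gen.Act

/-!
# The canonical degree of a line from a homogeneous frame
-/

set_option linter.unusedSectionVars false

namespace Vale.Agent.P269

open Set Function Topology Filter MvPolynomial

namespace Cnt

theorem deg_nonpos {g : (Fin 2 → ℂ) → ℂ} {m : ℤ} (ha : ∀ v ≠ 0, AnalyticAt ℂ g v)
    (hn : ∀ v ≠ 0, g v ≠ 0) (hs : ∀ s : ℂ, s ≠ 0 → ∀ v ≠ 0, g (s • v) = s ^ m * g v) : 0 ≤ m := by
  by_contra! hm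
  have n1 : ∀ z : ℂ, (![1, z] : Fin 2 → ℂ) ≠ 0 := fun z e => by simpa using congrFun e 0
  have n2 : ∀ z : ℂ, (![z, 1] : Fin 2 → ℂ) ≠ 0 := fun z e => by simpa using congrFun e 1
  have d : Differentiable ℂ fun z : ℂ => g ![1, z] := fun z =>
    ((ha _ (n1 z)).comp (f := fun z : ℂ => (![1, z] : Fin 2 → ℂ))
      (analyticAt_pi_iff.2 fun i => by fin_cases i <;> simp <;> fun_prop)).differentiableAt
  have i : Tendsto (fun z : ℂ => z⁻¹) (cocompact ℂ) (𝓝 0) := by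
    rw [← Metric.cobounded_eq_cocompact]
    exact Filter.tendsto_inv₀_cobounded
  have c : Tendsto (fun z : ℂ => g ![z⁻¹, 1]) (cocompact ℂ) (𝓝 (g ![0, 1])) :=
    ((ha _ (n2 0)).continuousAt.comp (f := fun z : ℂ => (![z, 1] : Fin 2 → ℂ))
      (continuousAt_pi.2 fun i => by fin_cases i <;> simp <;> fun_prop)).tendsto.comp i
  obtain ⟨n, rfl⟩ : ∃ n : ℕ, m = -(n + 1 : ℕ) := ⟨(-m - 1).toNat, by omega⟩
  have t : Tendsto (fun z : ℂ => z⁻¹ ^ (n + 1) * g ![z⁻¹, 1]) (cocompact ℂ) (𝓝 0) := by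
    simpa using (i.pow (n + 1)).mul c
  have e : ∀ᶠ z : ℂ in cocompact ℂ, z⁻¹ ^ (n + 1) * g ![z⁻¹, 1] = g ![1, z] := by
    filter_upwards [isCompact_singleton.compl_mem_cocompact (s := {(0 : ℂ)})] with z hz
    have h0 : z ≠ 0 := hz
    have := hs z h0 _ (n2 z⁻¹)
    rw [zpow_neg, zpow_natCast, ← inv_pow] at this
    rw [← this]
    exact congrArg g (funext fun i => by fin_cases i <;> simp [h0])
  exact hn _ (n1 0) (d.apply_eq_of_tendsto_cocompact 0 (t.congr' e))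

/-- a homogeneous holomorphic function without zeros has degree zero -/
theorem deg_eq_zero {g : (Fin 2 → ℂ) → ℂ} {m : ℤ} (ha : ∀ v ≠ 0, AnalyticAt ℂ g v)
    (hn : ∀ v ≠ 0, g v ≠ 0) (hs : ∀ s : ℂ, s ≠ 0 → ∀ v ≠ 0, g (s • v) = s ^ m * g v) : m = 0 :=
  le_antisymm (neg_nonneg.1 (deg_nonpos (g := fun v => (g v)⁻¹) (fun v h => (ha v h).inv (hn v h))
    (fun v h => inv_ne_zero (hn v h)) fun s a v b => by rw [hs s a v b, mul_inv, zpow_neg]))
    (deg_nonpos ha hn hs)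

variable {J : Type} {n : ℕ}

/-- the Pluecker coordinates of a family of vectors -/
noncomputable def plk (e : Fin n → J → ℂ) (s : Fin n → J) : ℂ := (Matrix.of fun i k => e i (s k)).det

theorem exists_plk_ne [Fintype J] {e : Fin n → J → ℂ} (h : LinearIndependent ℂ e) :
    ∃ s, plk e s ≠ 0 := by
  classical
  have h1 : (Matrix.of e).rank = n := by
    rw [Matrix.rank_eq_finrank_span_row]
    exact (finrank_span_eq_card h).trans (Fintype.card_fin n)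
  rw [Matrix.rank_eq_finrank_span_cols] at h1
  obtain ⟨s, a, -, c, d⟩ := exists_linearIndependent' ℂ (Matrix.of e).col
  have := d.finite_of_isNoetherian
  have := Fintype.ofFinite s
  have h2 : Fintype.card s = n := by rw [← finrank_span_eq_card d, c, h1]
  let q := Fintype.equivFinOfCardEq h2
  refine ⟨fun k => a (q.symm k), ?_⟩
  rw [plk, ← isUnit_iff_ne_zero, ← Matrix.isUnit_iff_isUnit_det,
    ← Matrix.linearIndependent_cols_iff_isUnit]
  exact d.comp _ q.symm.injective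

/-- two bases of a subspace have proportional Pluecker coordinates -/
theorem exists_plk_eq {V : Submodule ℂ (J → ℂ)} (v : Module.Basis (Fin n) ℂ V) {e : Fin n → J → ℂ}
    (he : ∀ i, e i ∈ V) : ∃ c : ℂ, ∀ s, plk e s = c * plk (fun i => (v i).1) s := by
  classical
  refine ⟨(Matrix.of fun i k => v.repr ⟨e i, he i⟩ k).det, fun s => ?_⟩
  rw [plk, plk, ← Matrix.det_mul]
  refine congrArg _ (Matrix.ext fun i k => ?_)
  have := congrArg (fun x : V => x.1 (s k)) (v.sum_repr ⟨e i, he i⟩)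
  rw [Matrix.mul_apply]
  simp only [Submodule.coe_sum, Submodule.coe_smul, Finset.sum_apply, Pi.smul_apply, smul_eq_mul] at this
  exact this.symm

theorem plk_smul (e : Fin n → J → ℂ) (a : Fin n → ℂ) (b : J → ℂ) (s : Fin n → J) :
    plk (fun i j => a i * (b j * e i j)) s = (∏ i, a i) * ((∏ k, b (s k)) * plk e s) := by
  rw [plk, plk, ← Matrix.det_mul_row, ← Matrix.det_mul_column]
  rfl

theorem an_plk {P : Type} [NormedAddCommGroup P] [NormedSpace ℂ P] {e : Fin n → P → J → ℂ} {x : P}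
    (h : ∀ i j, AnalyticAt ℂ (fun y => e i y j) x) (s : Fin n → J) :
    AnalyticAt ℂ (fun y => plk (fun i => e i y) s) x := by
  simp only [plk, Matrix.det_apply', Matrix.of_apply]
  exact Finset.analyticAt_fun_sum _ fun σ _ => analyticAt_const.mul
    (Finset.analyticAt_fun_prod _ fun i _ => h _ _)

end Cnt

open Cnt

variable {S Λ R J K : Type} [Fintype S] [Fintype Λ] [Fintype R] [Fintype J] [Fintype K]

namespace Fam

variable (F : Fam S Λ R J K)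

/-- A frame `e i` of the vertical tangent space along a line `σ` of class `φ`, homogeneous of
degrees `-n i`. -/
structure Frm (l : Λ → ℂ) (φ : R → ℤ) (σ : (Fin 2 → ℂ) → J → ℂ) {ι : Type} (n : ι → ℤ)
    (e : ι → (Fin 2 → ℂ) → J → ℂ) : Prop where
  mem : ∀ v ≠ 0, (l, σ v) ∈ F.cone
  an : ∀ v ≠ 0, AnalyticAt ℂ σ v
  hom : ∀ s : ℂ, s ≠ 0 → ∀ v ≠ 0, ∀ j, σ (s • v) j = s ^ (F.w j ⬝ᵥ φ) * σ v j
  vert : ∀ i, ∀ v ≠ 0, e i v ∈ F.vert (l, σ v)
  an' : ∀ i, ∀ v ≠ 0, AnalyticAt ℂ (e i) v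
  hom' : ∀ i, ∀ s : ℂ, s ≠ 0 → ∀ v ≠ 0, ∀ j, e i (s • v) j = s ^ (F.w j ⬝ᵥ φ - n i) * e i v j
  li : ∀ v ≠ 0, LinearIndependent ℂ fun i => e i v

variable {F}

theorem prod_zpow_pow {s : ℂ} (hs : s ≠ 0) (φ c : R → ℤ) : ∏ r, (s ^ φ r) ^ c r = s ^ (c ⬝ᵥ φ) := by
  rw [dotProduct, zpow_sum_ne hs]
  exact Finset.prod_congr rfl fun r _ => by rw [← zpow_mul, mul_comm]

/-- **The canonical degree of a line.** -/
theorem Frm.deg {l : Λ → ℂ} {φ : R → ℤ} {σ : (Fin 2 → ℂ) → J → ℂ} {ι : Type} [Fintype ι] {n : ι → ℤ}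
    {e : ι → (Fin 2 → ℂ) → J → ℂ} (h : F.Frm l φ σ n e) {K₀ : RD R} (hR : F.Reg K₀)
    (hc : Fintype.card ι = K₀.n) : K₀.γ ⬝ᵥ φ = ∑ i, n i := by
  let b := (Fintype.equivFinOfCardEq hc).symm
  have n1 : (![1, 0] : Fin 2 → ℂ) ≠ 0 := fun e => by simpa using congrFun e 0
  obtain ⟨q, q1, q2, q3⟩ := hR.det l (h.mem _ n1).1
  have k : ∀ v : Fin 2 → ℂ, ∃ g : ℂ, v ≠ 0 → g ≠ 0 ∧ ∀ s, q (σ v) s = g * plk (fun i => e (b i) v) s :=
    fun v => by
      by_cases hv : v = 0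
      · exact ⟨0, fun a => (a hv).elim⟩
      obtain ⟨c, w, c0, hw⟩ := q1 _ (h.mem v hv)
      obtain ⟨a, ha⟩ := exists_plk_eq w fun i => h.vert (b i) v hv
      obtain ⟨s, hs⟩ := exists_plk_ne ((h.li v hv).comp b b.injective)
      have a0 : a ≠ 0 := fun e => hs ((ha s).trans (by rw [e, zero_mul]))
      refine ⟨c / a, fun _ => ⟨div_ne_zero c0 a0, fun s => ?_⟩⟩
      rw [ha, hw, ← mul_assoc, div_mul_cancel₀ _ a0]
      rfl
  choose g hg using k
  have key := deg_eq_zero (g := g) (m := ∑ i, n i - K₀.γ ⬝ᵥ φ) (fun v hv => ?_)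
    (fun v hv => (hg v hv).1) fun t ht v hv => ?_
  · omega
  · obtain ⟨s, hs⟩ := exists_plk_ne ((h.li v hv).comp b b.injective)
    obtain ⟨f, f1, f2⟩ := q2 s _ (h.mem v hv)
    have p := an_plk (e := fun i => e (b i)) (fun i j => analyticAt_pi_iff.1 (h.an' _ v hv) j) s
    refine ((f1.comp (h.an v hv)).div p hs).congr ?_
    filter_upwards [isOpen_ne.mem_nhds hv, (h.an v hv).continuousAt.eventually f2,
      p.continuousAt.eventually_ne hs] with y y1 y2 y3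
    exact (div_eq_iff y3).2 ((y2 (h.mem y y1)).symm.trans ((hg y y1).2 s))
  · obtain ⟨s, hs⟩ := exists_plk_ne ((h.li v hv).comp b b.injective)
    have a1 := q3 (fun r => t ^ φ r) (isUnit_pi_iff.2 fun r => zpow_ne_zero _ ht) _ (h.mem v hv) s
    have a2 : (F.actT (1, fun r => t ^ φ r) (l, σ v)).2 = σ (t • v) := funext fun j => by
      simp [Wt.actT, prod_zpow_pow ht, h.hom t ht v hv]
    have a3 : plk (fun i => e (b i) (t • v)) s = (∏ i, t ^ (-n (b i))) *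
        ((∏ k, t ^ (F.w (s k) ⬝ᵥ φ)) * plk (fun i => e (b i) v) s) := by
      refine Eq.trans ?_ (plk_smul _ _ (fun j => t ^ (F.w j ⬝ᵥ φ)) s)
      exact congrArg (plk · s) (funext₂ fun i j => by
        rw [h.hom' _ t ht v hv, sub_eq_neg_add, zpow_add₀ ht, mul_assoc])
    simp only [prod_zpow_pow ht] at a1
    rw [a2, (hg _ (smul_ne_zero ht hv)).2, (hg _ hv).2, a3, ← zpow_sum_ne ht,
      b.sum_comp fun i => -n i, Finset.sum_neg_distrib, zpow_neg] at a1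
    have a4 : (∏ k, t ^ (F.w (s k) ⬝ᵥ φ)) ≠ 0 := Finset.prod_ne_zero_iff.2 fun _ _ => zpow_ne_zero _ ht
    have a5 := zpow_ne_zero (∑ i, n i) ht
    have a6 := zpow_ne_zero (K₀.γ ⬝ᵥ φ) ht
    have hs' : plk (fun i => e (b i) v) s ≠ 0 := hs
    rw [zpow_sub₀ ht]
    field_simp at a1 ⊢
    exact a1

/-- A chart `Θ` of the cone of the member `l` along the line `x₀ + L v`, equivariant for the weights
`n i` of the coordinates and the class `φ`. -/
structure Crt (F : Fam S Λ R J K) (l : Λ → ℂ) (φ : R → ℤ) {ι : Type} [Fintype ι] (n : ι → ℤ)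
    (Θ : (ι → ℂ) → J → ℂ) (x : (Fin 2 → ℂ) → ι → ℂ) : Prop where
  anx : ∀ v ≠ 0, AnalyticAt ℂ x v
  homx : ∀ s : ℂ, s ≠ 0 → ∀ v ≠ 0, ∀ i, x (s • v) i = s ^ n i * x v i
  an : ∀ v ≠ 0, AnalyticAt ℂ Θ (x v)
  mem : ∀ v ≠ 0, ∀ᶠ y in 𝓝 (x v), (l, Θ y) ∈ F.cone
  hom : ∀ s : ℂ, s ≠ 0 → ∀ v ≠ 0, ∀ᶠ y in 𝓝 (x v), ∀ j,
    Θ (fun i => s ^ n i * y i) j = s ^ (F.w j ⬝ᵥ φ) * Θ y j
  inj : ∀ v ≠ 0, Injective (fderiv ℂ Θ (x v))

theorem c1_mem_vert {z : (Λ → ℂ) × (J → ℂ)} {η : J → ℂ} :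
    η ∈ F.vert z ↔ (∀ j ∉ F.mov, η j = 0) ∧ ∀ k, ∑ j, F.jac z k j * η j = 0 := by
  simp [vert, jac, Submodule.mem_iInf, LinearMap.sum_apply]

theorem fderiv_mem_vert {P : Type} [NormedAddCommGroup P] [NormedSpace ℂ P] {Θ : P → J → ℂ} {y : P}
    {l : Λ → ℂ} (hA : F.movᶜ ⊆ F.zer) (a : AnalyticAt ℂ Θ y) (m : ∀ᶠ y in 𝓝 y, (l, Θ y) ∈ F.cone)
    (ξ : P) : fderiv ℂ Θ y ξ ∈ F.vert (l, Θ y) := by
  have d := a.differentiableAt.hasFDerivAt
  refine c1_mem_vert.2 ⟨fun j hj => ?_, fun k => ?_⟩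
  · have := (hasFDerivAt_pi'.1 d j).unique ((hasFDerivAt_const (0 : ℂ) y).congr_of_eventuallyEq
      (m.mono fun y b => b.2.1.2.2 j (hA hj)))
    exact DFunLike.congr_fun this ξ
  · have p := ((AnalyticOnNhd.eval_mvPolynomial ((F.fib l).F k)) (Θ y)
      trivial).differentiableAt.hasFDerivAt
    have a1 := DFunLike.congr_fun ((p.comp y d).unique ((hasFDerivAt_const (0 : ℂ)
      y).congr_of_eventuallyEq (m.mono fun y b => b.2.2 k))) ξ
    have a2 : HasDerivAt (fun ε : ℂ => fun j => Θ y j + ε * fderiv ℂ Θ y ξ j) (fderiv ℂ Θ y ξ) 0 :=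
      hasDerivAt_pi.2 fun j => by
        simpa using ((hasDerivAt_id' (0 : ℂ)).mul_const (fderiv ℂ Θ y ξ j)).const_add (Θ y j)
    exact ((Vir.hasDerivAt_eval _ _ _).unique (p.comp_hasDerivAt_of_eq 0 a2 (by simp))).trans a1

theorem Crt.frm {l : Λ → ℂ} {φ : R → ℤ} {ι : Type} [Fintype ι] [DecidableEq ι] {n : ι → ℤ}
    {Θ : (ι → ℂ) → J → ℂ} {x : (Fin 2 → ℂ) → ι → ℂ} (h : F.Crt l φ n Θ x) (hA : F.movᶜ ⊆ F.zer) :
    F.Frm l φ (fun v => Θ (x v)) n fun i v => fderiv ℂ Θ (x v) (Pi.single i 1) := by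
  have e : ∀ s : ℂ, s ≠ 0 → ∀ v ≠ 0, x (s • v) = fun i => s ^ n i * x v i :=
    fun s a v b => funext (h.homx s a v b)
  refine ⟨fun v a => (h.mem v a).self_of_nhds, fun v a => (h.an v a).comp (h.anx v a),
    fun s a v b j => by rw [e s a v b, (h.hom s a v b).self_of_nhds],
    fun i v a => fderiv_mem_vert hA (h.an v a) (h.mem v a) _, fun i v a => ?_,
    fun i s a v b j => ?_, fun v a => ?_⟩
  · exact ((ContinuousLinearMap.apply ℂ (J → ℂ) (Pi.single i 1 : ι → ℂ)).analyticAt _).comp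
      ((h.an v a).fderiv.comp (h.anx v a))
  · let D : (ι → ℂ) →L[ℂ] (ι → ℂ) := .pi fun i => s ^ n i • .proj i
    have d1 := (h.an _ (smul_ne_zero a b)).differentiableAt.hasFDerivAt
    rw [e s a v b] at d1 ⊢
    have d2 := (hasFDerivAt_pi'.1 (d1.comp (x v) D.hasFDerivAt) j).unique
      (((hasFDerivAt_pi'.1 (h.an v b).differentiableAt.hasFDerivAt j).const_mul
        (s ^ (F.w j ⬝ᵥ φ))).congr_of_eventuallyEq ((h.hom s a v b).mono fun y c => c j))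
    have d3 := DFunLike.congr_fun d2 (Pi.single i 1)
    have d4 : D (Pi.single i 1) = s ^ n i • (Pi.single i 1 : ι → ℂ) := funext fun i' => by
      by_cases c : i' = i
      · simp [D, c]
      · simp [D, c]
    simp only [ContinuousLinearMap.comp_apply, d4, map_smul, ContinuousLinearMap.proj_apply,
      smul_apply, smul_eq_mul] at d3
    rw [zpow_sub₀ a, div_mul_eq_mul_div, eq_div_iff (zpow_ne_zero _ a), mul_comm]
    exact d3
  · exact (Pi.linearIndependent_single_one ι ℂ).map' (fderiv ℂ Θ (x v)).toLinearMap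
      (LinearMap.ker_eq_bot.2 (h.inj v a))

/-- **The canonical degree of a line from an equivariant chart.** -/
theorem Crt.deg {l : Λ → ℂ} {φ : R → ℤ} {ι : Type} [Fintype ι] {n : ι → ℤ}
    {Θ : (ι → ℂ) → J → ℂ} {x : (Fin 2 → ℂ) → ι → ℂ} (h : F.Crt l φ n Θ x) (hA : F.movᶜ ⊆ F.zer)
    {K₀ : RD R} (hR : F.Reg K₀) (hc : Fintype.card ι = K₀.n) : K₀.γ ⬝ᵥ φ = ∑ i, n i := by
  classical
  exact (h.frm hA).deg hR hc

end Fam

end Vale.Agent.P269
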