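import Vale.Agent.P287Q.Cnt.Pos

/-!
# The number of lines in the fibres does not vanish
-/

set_option linter.unusedSectionVars false

namespace Vale.Agent.P269

open Set Function Topology Filter P291Z Orb Mono Module MvPolynomial Cnt

variable {R J K ν κ I Q : Type} [Fintype R] [Fintype J] [Fintype K] [Fintype ν] [Fintype κ]
  [Fintype I] [Fintype Q] [DecidableEq R] [DecidableEq Q] {F : Fam Empty Empty R J K} {K₀ : RD R}
  {k D : ℕ} {g : ℤ} {d : R → ℤ}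

theorem Cnt.Wp.sub_mul {w : J → R → ℤ} {c : R → ℤ} {p p' : MvPolynomial J ℂ} (h : Wp w c p)
    (h' : Wp w c p') (a : ℂ) : Wp w c (p - a • p') := fun α e => by
  classical
  exact (Finset.mem_union.1 (support_sub _ _ _ e)).elim (h α) fun e => h' α (support_smul e)

theorem Fam.Lin.eq_pt {l : Empty → ℂ} {φ c : R → ℤ} {ψ : I → Empty → ℤ} {f : I → MvPolynomial J ℂ}
    {σ : J → MvPolynomial I ℂ} (h : F.Lin l φ c ψ f σ) (hF : F.Good) {z} (hz : z ∈ F.lin l σ)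
    {s : ℂ} {v : I → ℂ} (e : (fun a => eval z.2 (f a)) = s • v) :
    ∃ t, IsUnit t ∧ z = F.actT t (l, sv σ v) := by
  obtain ⟨a, b, c⟩ := h.nf' hF hz
  have s0 : s ≠ 0 := fun k => a (by rw [e, k, zero_smul])
  refine ⟨_, unit1 (t := fun r => gz F f σ z.2 r * s ^ φ r) fun r =>
    mul_ne_zero (b r) (zpow_ne_zero _ s0), Prod.ext (Subsingleton.elim _ _) (funext fun j => ?_)⟩
  rw [act1, c, e, h.sv_smul s0]
  simp only [mul_zpow, Finset.prod_mul_distrib, zpow_dot s0, mul_assoc]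

theorem Cnt.intg_alg {X : Type} [TopologicalSpace X] (T : H X →ₗ[ℂ] ℂ) {s a b : H X}
    {L : Option (Q ⊕ Q) → Ch.Hev X} (ε : Option (Q ⊕ Q) → ℂ) (t : ℂ)
    (z : T (s * (a * (∏ j, L (some (.inl j))).1 * (b * (∏ j, L (some (.inr j))).1) * (L none).1)) =
      0) : T (s * (t • (a * b)) * (∏ i, ε i • L i).1) = 0 := by
  rw [Finset.prod_smul, Subalgebra.coe_smul, mul_smul_comm, mul_smul_comm, smul_mul_assoc, map_smul,
    map_smul, Fintype.prod_option (f := L), Fintype.prod_sum_type, mul_comm (L none),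
    Subalgebra.coe_mul, Subalgebra.coe_mul]
  refine smul_eq_zero_of_right _ (smul_eq_zero_of_right _ (Eq.trans (congrArg _ ?_) z))
  simp only [mul_assoc]
  rw [← mul_assoc b, ← Ch.Hev.commute (Subtype.prop _) b, mul_assoc]

/-- An absolute target with a large chart. -/
structure Fam.Ab (F : Fam Empty Empty R J K) (K₀ : RD R) (k D : ℕ) : Prop where
  good : F.Good
  reg : F.Reg K₀
  B : F.B = univ
  abs : F.Abs
  big : F.Big k
  bigD : F.BigD k D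

namespace Fam.Ab

variable (h : F.Ab K₀ k D)
include h

theorem sm : F.Sm (finrank ℂ (Empty → ℂ)) := fun l =>
  ((Holo.MfdAt.univ l.1).congr (.of_forall fun _ => by simp [h.B])).isMfd l.2

theorem pol : F.PolE := ⟨∅, by simp, by simp [h.abs.2]⟩

theorem sh : F.Sh 0 (Fin.elim0 : Fin 0 → J) (fun _ => 0) fun _ _ => 1 :=
  ⟨fun i => i.elim0, linearIndependent_empty_type, fun _ i => i.elim0,
    fun _ a b => (b (h.abs.1 a)).elim, fun _ _ _ => ⟨analyticAt_const, one_ne_zero⟩,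
    fun _ a b => (b (h.abs.1 a)).elim, fun _ a b => (b (h.abs.1 a)).elim,
    fun _ _ _ _ _ => iff_of_true (h.abs.2 ▸ trivial) fun _ a b => (b (h.abs.1 a)).elim,
    fun _ _ => rfl⟩

theorem nice : F.Nice 0 := ⟨h.good, ⟨_, h.reg⟩, ⟨_, h.sm⟩, h.pol, _, _, _, _, h.sh⟩

variable (ν g d) in
theorem compact : CompactSpace (F.Mod (Fin 0) k D g d (0 : ν → J → ℕ)) :=
  Cpt.compactSpace_mod h.good h.big h.bigD rfl (T := univ) isCompact_univ h.B.ge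
    (fun _ _ => ⟨1, isUnit_one, trivial⟩) _

variable (ν g d) in
theorem gz : Ch.GZ F ℓs (F.Zs (Fin 0) k D g d (0 : ν → J → ℕ)) :=
  h.nice.gz (Fin 0) h.big h.bigD g d 0

variable (ν g d) in
theorem clopen : IsClopen (F.sel fun m => m.Conn : Set (F.Mod (Fin 0) k D g d (0 : ν → J → ℕ))) :=
  isClopen_sel_of_same h.bigD fun _ _ => AM.Same.conn

variable (ν g d) in
theorem pack : ∃ (U : Set ((F.sch ν (Fin 0) k D g d).WF ν (Fin 0) Empty)) (n : ℕ),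
    (F.sch ν (Fin 0) k D g d).Ok F (F.tdeg (F.sch ν (Fin 0) k D g d)) K₀ ℓs
      (finrank ℂ (Empty → ℂ)) U ∧ Ch.Vm F (F.tdeg (F.sch ν (Fin 0) k D g d)) 0 U n ∧
      ∀ x ∈ (F.sch ν (Fin 0) k D g d).solF ν (Fin 0) F,
        x ∈ (F.sch ν (Fin 0) k D g d).main (Fin 0) F 0 ∧
        (n : ℤ) = F.vdim ν (Fin 0) K₀ 0 0 g d + (F.sch ν (Fin 0) k D g d).rk F ℓs K₀ := by
  obtain ⟨U, a⟩ := h.good.ok' ν (Fin 0) h.reg h.sm h.big h.bigD g d
  refine ⟨U, _, a, a.vd_sh h.pol h.sh 0, fun x c => ?_⟩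
  have m : x ∈ (F.sch ν (Fin 0) k D g d).main (Fin 0) F 0 :=
    ⟨(Ch.solF_subset_adm_iff c).2 fun _ _ q => q.elim0, fun _ a b => (b (h.abs.1 a)).elim⟩
  obtain ⟨e, f⟩ := a.num.mfd_main a.sm (a.lat.gr a.inv h.sh 0) m
  refine ⟨m, ?_⟩
  rw [Nat.cast_sub (a.pr.finrank_le (Ch.lev_main a.inv _) f (a.pr.sol c)), e,
    ← chart_vdim (k := k) (D := D), Ch.vdim_eq a.cuts.ne c.1.2.1, finrank_fintype_fun_eq_card,
    Fintype.card_empty, Fintype.card_fin]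
  ring

/-- the maps of the connected part -/
theorem exists_am (x : F.Zs (Fin 0) k D g d (0 : ν → J → ℕ))
    (hx : Quo.mk _ x ∈ (F.sel fun m => m.Conn : Set (F.Mod (Fin 0) k D g d 0))) :
    ∃ m, Ch.Rep ℓs univ x.1 m ∧ m.Sol F ∧ m.Stable F.θ ∧ m.Typ g d ∧ m.Conn ∧
      ∀ n, ∃ t, IsUnit t ∧ Ch.vl x.1 n = F.actT t (m.vl (m.p n)) :=
  let ⟨m, r⟩ := (chart_lat h.bigD).exists_rep_sol x.2.1
  have b := x.2.1.1.2.1
  let ⟨_, s, e⟩ := r.vl (W := F.toWt) b chart_wd'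
  ⟨m, r, (r.mem_solF b h.good.toInv chart_wd').1 x.2.1, rep_stable h.bigD r b, rep_typ r b,
    (mem_sel (fun _ _ e => e.conn) r).1 hx,
    fun n => ⟨_, Prod.isUnit_iff.2 ⟨isUnit_one, s _⟩, e n⟩⟩

variable (g d) in
/-- The evaluation map. -/
noncomputable def ev (n : Ch.Mk ν (Fin 0)) :
    C(F.Mod (Fin 0) k D g d (0 : ν → J → ℕ), F.X F.cone) :=
  ((h.gz ν g d).eqh_vl n fun _ a => Ch.vl_mem a.1 n).toEqv.qm

theorem cl_ev (n : Ch.Mk ν (Fin 0)) (c : H (F.X F.cone)) :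
    F.cl (F.Zs (Fin 0) k D g d 0) (.ev n F.cone c) = H.map (h.ev g d n) c :=
  (h.gz ν g d).cl_ev n (fun _ a => Ch.vl_mem a.1 n) c

/-- evaluation maps into an invariant part of the target -/
theorem exists_ev {A : Set _} [FP F.actT A] (hA : A ⊆ F.cone) (h0 : A.Nonempty) (n : Ch.Mk ν (Fin 0))
    (hm : ∀ m : AM Empty R J ν (Fin 0), m.Sol F → m.Conn → m.Typ g d → m.vl (m.p n) ∈ A) :
    ∃ e : C(F.Mod (Fin 0) k D g d (0 : ν → J → ℕ), F.X A),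
      (∀ c, hcls (ind (F.sel fun m => m.Conn)) * H.map (h.ev g d n) c =
        hcls (ind (F.sel fun m => m.Conn)) * H.map e (F.rs hA c)) ∧
      ∀ x : F.Zs (Fin 0) k D g d 0, Quo.mk _ x ∈ (F.sel fun m => m.Conn : Set (F.Mod _ k D g d 0)) →
        ∃ a, e (Quo.mk _ x) = Quo.mk _ ⟨Ch.vl x.1 n, a⟩ := by
  have := h.good.fp
  have : Nonempty (F.X A) := h0.to_subtype.map (Quo.mk _)
  have i : IsEmbedding (qinc F.actT hA) := Quo.isEmbedding_incl hA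
  have a : ∀ x : F.Zs (Fin 0) k D g d (0 : ν → J → ℕ),
      Quo.mk _ x ∈ (F.sel fun m => m.Conn : Set (F.Mod _ k D g d 0)) → Ch.vl x.1 n ∈ A :=
    fun x hx => let ⟨m, _, b, _, c, e, f⟩ := h.exists_am x hx
      let ⟨t, u, v⟩ := f n
      v ▸ Holo.IsAct.mem t u _ (hm m b e c)
  obtain ⟨e, he⟩ := exists_lift i (h.clopen ν g d) (h.ev g d n) fun z hz => by
    obtain ⟨x, rfl⟩ := Tq.mk_surj z
    exact ⟨Quo.mk _ ⟨_, a x hz⟩, rfl⟩
  exact ⟨e, fun c => (ind_mul_congr (h.clopen ν g d) (g := (qinc F.actT hA).comp e)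
    (fun z hz => (he z hz).symm) c).trans (congrArg _ (H.map_map _ _ _).symm),
    fun x hx => ⟨a x hx, i.injective (he _ hx)⟩⟩

end Fam.Ab

variable {A₀ W₀ : Type} [NormedRing A₀] [NormedAlgebra ℂ A₀] [NormedAddCommGroup W₀]
  [NormedSpace ℂ W₀] [FiniteDimensional ℂ A₀] [FiniteDimensional ℂ W₀] {act₀ : A₀ → W₀ → W₀}
  {Z : Set W₀} [Holo.IsAct act₀ univ] [FP act₀ Z] {n₀ : ℕ}

variable (F ν) in
/-- The connected maps of class `φ` lie in the fibres of `q`. -/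
structure Fam.Fb (φ : R → ℤ) (A : Set ((Empty → ℂ) × (J → ℂ))) (q : C(F.X A, Quo act₀ Z))
    (pr : (Empty → ℂ) × (J → ℂ) → W₀) : Prop where
  sub : A ⊆ F.cone
  mk_eq : ∀ z : A, ∃ h, q (Quo.mk _ z) = Quo.mk act₀ ⟨pr z, h⟩
  an : ∀ z ∈ A, AnalyticAt ℂ pr z
  cst : ∀ m : AM Empty R J ν (Fin 0), m.Sol F → m.Conn → m.Typ 0 φ → ∀ x x', ∃ h h',
    q (Quo.mk _ ⟨m.vl x, h⟩) = q (Quo.mk _ ⟨m.vl x', h'⟩)

variable {l : Empty → ℂ} {φ c : R → ℤ} {ψ : Option Q → Empty → ℤ}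
  {f : Option Q → MvPolynomial J ℂ} {σ : J → MvPolynomial (Option Q) ℂ}
  {nA nB nC : Ch.Mk ν (Fin 0)} {A : Set ((Empty → ℂ) × (J → ℂ))} [FP F.actT A]
  {q : C(F.X A, Quo act₀ Z)} {pr : (Empty → ℂ) × (J → ℂ) → W₀}

theorem Fam.Ab.key (h : F.Ab K₀ k D) (hl : F.Lin l φ c ψ f σ) (t : Tri nA nB nC) (q₁ : Q)
    (b : F.Fb ν φ A q pr)
    (fib : ∀ z z' : A, z'.1 ∈ F.lin l σ → q (Quo.mk _ z) = q (Quo.mk _ z') → z.1 ∈ F.lin l σ)
    (hn : Tq.Dim act₀ Z n₀)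
    (hv : K₀.n + K₀.γ ⬝ᵥ φ = Fintype.card R + n₀ + (2 * Fintype.card Q + 1))
    {e : C(F.Mod (Fin 0) k D 0 φ (0 : ν → J → ℕ), F.X A)}
    (he : ∀ x : F.Zs (Fin 0) k D 0 φ 0, Quo.mk _ x ∈ (F.sel fun m => m.Conn : Set (F.Mod _ k D 0 φ 0)) →
      ∃ a, e (Quo.mk _ x) = Quo.mk _ ⟨Ch.vl x.1 nB, a⟩)
    {w : Option (Q ⊕ Q) → R → ℤ} (hw : ∀ i, 0 < w i ⬝ᵥ φ) :
    haveI := h.good.fp
    ∃ a : H (Quo act₀ Z), H.IsDeg (2 * n₀) a ∧ Loc.intg (F.vir (Fin 0) k D 0 φ 0)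
      (hcls (ind (F.sel fun m => m.Conn)) * H.map (q.comp e) a * (∏ i, Ch.Hev.map
        (h.ev 0 φ (i.elim nC (Sum.elim (fun _ => nA) fun _ => nB))) (F.lce F.cone (0, w i))).1) ≠ 0 := by
  have := h.good.fp
  have ha : none ≠ some q₁ := nofun
  have e₀ := hl.ln_std h.good t ha
  obtain ⟨U, n, ok, hV, hd⟩ := h.pack ν 0 φ
  obtain ⟨y, π, u, r⟩ := exists_repD h.big h.bigD e₀.sol e₀.stab e₀.typ (s := 1)
    fun _ _ => one_ne_zero
  have ys := (r.mem_solF h.good.toInv chart_wd').2 e₀.sol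
  have ym := (hd y ys).1
  let y' : F.Zs (Fin 0) k D 0 φ (0 : ν → J → ℕ) := ⟨y, ys, subset_closure ym, ys.1⟩
  have y3 : Quo.mk _ y' ∈ (F.sel fun m => m.Conn : Set (F.Mod _ k D 0 φ 0)) :=
    (mem_sel (fun _ _ e => e.conn) r.rep).2 e₀.conn
  obtain ⟨yA, y4⟩ := he y' y3
  obtain ⟨yZ, y5⟩ := b.mk_eq ⟨_, yA⟩
  obtain ⟨a, G, g, a1, a2, a3, a4, a5, a6, a7, a8⟩ := exists_pt hn ⟨_, yZ⟩
  refine ⟨hcls a, hcls_isDeg a3, ?_⟩
  have := h.compact ν 0 φ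
  have hS := h.clopen ν 0 φ
  obtain ⟨b1, b2, b3⟩ := loc_pt hS (q.comp e) a2 a5 a6
  let p : Option (Q ⊕ Q) → MvPolynomial J ℂ := fun i => i.elim (f none) (Sum.elim
    (fun j => f (some j)) fun j => f (some j) - lnc none (some q₁) (1 : ℂ) (some j) • f none)
  let n' : Option (Q ⊕ Q) → Ch.Mk ν (Fin 0) := fun i =>
    i.elim nC (Sum.elim (fun _ => nA) fun _ => nB)
  have hp : ∀ i, Wp F.w c (p i) := by
    rintro (_ | j | j)
    exacts [hl.wf _, hl.wf _, (hl.wf _).sub_mul (hl.wf _) _]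
  have k0 : ∀ i, (w i ⬝ᵥ φ).toNat ≠ 0 := fun i => by have := hw i; omega
  have tr : ∀ {z z' : (Empty → ℂ) × (J → ℂ)}, (∃ t, IsUnit t ∧ z = F.actT t z') → ∀ i,
      (eval z.2 (p i) = 0 ↔ eval z'.2 (p i) = 0) := fun ⟨t, a, b⟩ i => by
    rw [b, eval_act (ψ := 0) (hp i) (fun _ _ r => r.elim) a]
    exact mul_eq_zero_iff_left (mul_ne_zero (by simp)
      (prod_zpow_ne (isUnit_pi_iff.1 (Prod.isUnit_iff.1 a).2) c))
  have yv : ∀ n, Ch.vl y n = (t.std φ l σ none (some q₁)).vl (Tri.pos nA nB n) := fun n => by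
    rw [r.vl (W := F.toWt) chart_wd']
    simp only [Pi.one_apply, one_zpow, Finset.prod_const_one]
    exact F.actT_one _
  have lv : ∀ x : F.Zs (Fin 0) k D 0 φ (0 : ν → J → ℕ), Quo.mk _ x ∈ (F.sel fun m => m.Conn :
      Set (F.Mod _ k D 0 φ 0)) ∩ q.comp e ⁻¹' {Quo.mk act₀ ⟨_, yZ⟩} →
      ∃ m, Ch.Rep ℓs univ x.1 m ∧ m.Sol F ∧ m.Stable F.θ ∧ m.Typ 0 φ ∧ m.Conn ∧
      (∀ n, ∃ t, IsUnit t ∧ Ch.vl x.1 n = F.actT t (m.vl (m.p n))) ∧ ∀ z, m.vl z ∈ F.lin l σ :=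
    fun x hx => by
      obtain ⟨m, c1, c2, c3, c4, c5, c6⟩ := h.exists_am x hx.1
      refine ⟨m, c1, c2, c3, c4, c5, c6, fun z => ?_⟩
      obtain ⟨d1, d2, d3⟩ := b.cst m c2 c5 c4 z (m.p nB)
      obtain ⟨d4, d5⟩ := he x hx.1
      obtain ⟨s, s1, s2⟩ := c6 nB
      refine fib ⟨_, d1⟩ ⟨_, yA⟩ (mem_of_eq_of_mem (yv nB) (e₀.lin _)) (d3.trans ((congrArg q
        ((Quot.sound ⟨s, s1, s2⟩).trans d5.symm)).trans (Eq.trans hx.2 y5.symm)))
  have yl : Quo.mk _ y' ∈ (F.sel fun m => m.Conn : Set (F.Mod _ k D 0 φ 0)) ∩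
    q.comp e ⁻¹' {Quo.mk act₀ ⟨_, yZ⟩} := ⟨y3, (congrArg q y4).trans y5⟩
  have lv' := fun x hx i => let ⟨_, _, _, _, _, _, c, d⟩ := lv x hx
    let ⟨_, u, v⟩ := c (n' i)
    (v ▸ Lin.act_mem u (d _) : Ch.vl x.1 (n' i) ∈ F.lin l σ)
  obtain ⟨Φ, c1, c3, c2⟩ := Ch.an_vl' nB ys
  have c4 := (b.an _ yA).comp_of_eq c1 c3
  have c5 : (pr ∘ Φ) y = pr (Ch.vl y nB) := congrArg pr c3
  rw [H.map_hcls _ a1, ← hcls_mul (cocycle_ind' hS) (cocycle_pull (q.comp e).continuous a1)]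
  refine hV.pos_sec ok.toStd n'
    (fun i => hl.sc h.good (hp i) (Int.toNat_of_nonneg (hw i).le).symm 0)
    (hS.isClosed.inter (isClosed_singleton.preimage (q.comp e).continuous)) y'
    ⟨⟨ym, (hV.dom.sub y'.2).1.2⟩, (hV.dom.sub y'.2).2⟩ yl lv' (fun x hx z => ?_) (fun i => ?_)
    (cocycle_mul (cocycle_ind' hS) (cocycle_pull (q.comp e).continuous a1)) b1
    (G := G.comp (q.comp e)) (fun z p => (congrArg G p.2).trans a4) b2 (by rwa [pull_pull] at b3)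
    (g := g ∘ pr ∘ Φ) (a7.comp_of_eq c4 c5) ?_ ?_ fun i => ?_
  · obtain ⟨m, d1, d2, d3, d4, d5, d6, d7⟩ := lv x hx
    have z' := fun i => (tr (d6 _) i).1 ((hl.sec_eq_zero h.good (lv' x hx i) (k0 i)).1 (z i))
    refine ((Ch.mk_eq_iff_iso (chart_lat h.bigD) (chart_cuts h.bigD).1 chart_tight
      (fun _ q => q.1.1.2.1) r.rep d1).2 (hl.iso_std h.good t ha ⟨d2, d3, d4, d5, d7, ?_,
        hl.eq_pt h.good (d7 _) (s := m.co f none (m.p nB)) (funext ?_), z' none⟩)).symm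
    · rintro (_ | j) hj
      exacts [(hj rfl).elim, z' (some (.inl j))]
    · rintro (_ | j)
      · simp [lnc_zero ha, AM.co]
      · have := z' (some (.inr j))
        simp only [p, Option.elim, Sum.elim_inr, map_sub, smul_eval, sub_eq_zero] at this
        exact this.trans (mul_comm _ _)
  · rw [hl.sec_eq_zero h.good (lv' y' yl i) (k0 i), yv]
    rcases i with _ | j | j
    · exact e₀.cC
    · exact e₀.cA _ nofun
    · obtain ⟨s, -, s1⟩ := hl.co_B h.good e₀ rfl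
      simp only [p, Option.elim, Sum.elim_inr, map_sub, smul_eval, sub_eq_zero]
      exact (s1 _).trans ((mul_comm _ _).trans (congrArg _
        ((s1 none).trans (by simp [lnc_zero ha])).symm))
  · have o : ∀ᶠ x : F.Zs (Fin 0) k D 0 φ (0 : ν → J → ℕ) in 𝓝 y',
        Quo.mk _ x ∈ (F.sel fun m => m.Conn : Set (F.Mod _ k D 0 φ 0)) :=
      Tq.continuous_mk.continuousAt.eventually (hS.isOpen.mem_nhds y3)
    rw [nhds_subtype, eventually_comap] at o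
    filter_upwards [c2, (c4.continuousAt.tendsto.mono_right (by rw [c5])).eventually a8, o] with x p p' o hx
    obtain ⟨d1, d2⟩ := he ⟨x, hx⟩ (o _ rfl)
    obtain ⟨d3, d4⟩ := b.mk_eq ⟨_, d1⟩
    have d5 : pr (Ch.vl x nB) = (pr ∘ Φ) x := congrArg pr (p hx.1)
    exact (congrArg G ((congrArg q d2).trans d4)).trans
      ((congrArg (fun z => G (Quo.mk _ z)) (Subtype.ext d5)).trans (p' (d5 ▸ d3)))
  · have := t.card
    rw [(hd y ys).2, vdim]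
    simp only [Fintype.card_sum, Fintype.card_prod, Fintype.card_fin, Fintype.card_option,
      Fintype.card_empty, dotProduct] at this hv ⊢
    push_cast
    omega
  · exact (congrArg (H.map _) (Wt.lce_val _ _)).trans
      ((h.gz ν 0 φ).cl_lc' _ (fun _ a => Ch.vl_mem a.1 _) _ _)

/-- **The number of lines in the fibres through three constraints does not vanish.** -/
theorem Fam.Ab.cnt (h : F.Ab K₀ k D) (hl : F.Lin l φ c ψ f σ) (t : Tri nA nB nC) (q₁ : Q)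
    (b : F.Fb ν φ A q pr)
    (fib : ∀ z z' : A, z'.1 ∈ F.lin l σ → q (Quo.mk _ z) = q (Quo.mk _ z') → z.1 ∈ F.lin l σ)
    (hn : Tq.Dim act₀ Z n₀) [CompactSpace (Quo act₀ Z)] [PreconnectedSpace (Quo act₀ Z)]
    (hv : K₀.n + K₀.γ ⬝ᵥ φ = Fintype.card R + n₀ + (2 * Fintype.card Q + 1))
    {eA eB : Q → R → ℤ} {eC : R → ℤ} (wA : ∀ j, eA j ⬝ᵥ φ ≠ 0) (wB : ∀ j, eB j ⬝ᵥ φ ≠ 0)
    (wC : eC ⬝ᵥ φ ≠ 0) {cA cB cC : H (F.X F.cone)} {ωA ωB : H (Quo act₀ Z)}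
    (hA : F.rs b.sub cA = H.map q ωA * (∏ j, F.lce A (0, eA j)).1)
    (hB : F.rs b.sub cB = H.map q ωB * (∏ j, F.lce A (0, eB j)).1)
    (hC : F.rs b.sub cC = F.lc A 0 eC) (hω : H.IsDeg (2 * n₀) (ωA * ωB)) (h0 : ωA * ωB ≠ 0) :
    Loc.intg (F.vir (Fin 0) k D 0 φ 0) (hcls (ind (F.sel fun m => m.Conn)) *
      (F.cl _ (.ev nA F.cone cA) * F.cl _ (.ev nB F.cone cB) * F.cl _ (.ev nC F.cone cC))) ≠ 0 := by
  have := h.good.fp
  have e₀ := hl.ln_std h.good t (a₀ := none) (a₁ := some q₁) nofun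
  choose e e1 e2 using fun n => h.exists_ev b.sub ⟨_, (b.cst _ e₀.sol e₀.conn e₀.typ
    OnePoint.infty OnePoint.infty).1⟩ n fun m u v w => (b.cst m u v w _ (m.p n)).1
  let E : Option (Q ⊕ Q) → R → ℤ := fun i => i.elim eC (Sum.elim eA eB)
  have hE : ∀ i, E i ⬝ᵥ φ ≠ 0 := by
    rintro (_ | j | j)
    exacts [wC, wA j, wB j]
  obtain ⟨a, a1, a2⟩ := h.key hl t q₁ b fib hn hv (e2 nB) (w := fun i => (E i ⬝ᵥ φ).sign • E i)
    fun i => by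
      rw [smul_dotProduct, smul_eq_mul, Int.sign_mul_self_eq_abs]
      exact abs_pos.2 (hE i)
  obtain ⟨s, rfl⟩ := top_smul hn.ori hω a1 h0
  have k : ∀ n (x : Q → R → ℤ) c ω, F.rs b.sub c = H.map q ω * (∏ j, F.lce A (0, x j)).1 →
      hcls (ind (F.sel fun m => m.Conn)) * F.cl _ (.ev n F.cone c) =
        hcls (ind (F.sel fun m => m.Conn)) * (H.map (q.comp (e nB)) ω *
          (∏ j, Ch.Hev.map (h.ev 0 φ n) (F.lce F.cone (0, x j))).1) := fun n x c ω u => by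
    rw [h.cl_ev, e1, u, map_mul, H.map_map, ← map_prod (Ch.Hev.map (h.ev 0 φ n))]
    refine mul_congr (ind_mem _) (ind_mul_congr (h.clopen ν 0 φ) (fun z hz => ?_) _)
      (Eq.trans (congrArg (fun c => _ * H.map (e n) c) ?_) (e1 n _).symm)
    · obtain ⟨x, rfl⟩ := Tq.mk_surj z
      obtain ⟨m, -, c2, -, c4, c5, c6⟩ := h.exists_am x hz
      obtain ⟨d1, d2, d3⟩ := b.cst m c2 c5 c4 (m.p n) (m.p nB)
      have v : ∀ n d, e n (Quo.mk _ x) = Quo.mk _ ⟨m.vl (m.p n), d⟩ := fun n d =>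
        (e2 n x hz).2.trans (Quot.sound (c6 n)).symm
      exact (congrArg q (v n d1)).trans (d3.trans (congrArg q (v nB d2)).symm)
    · refine congrArg Subtype.val ((Finset.prod_congr rfl fun j _ => Subtype.ext ?_).trans
        (map_prod (Ch.Hev.map (qinc F.actT b.sub)) _ _).symm)
      rw [Ch.Hev.coe_map, Wt.lce_val, Wt.lce_val]
      exact (Wt.rs_lc b.sub _ _).symm
  have kC : hcls (ind (F.sel fun m => m.Conn)) * F.cl _ (.ev nC F.cone cC) =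
      hcls (ind (F.sel fun m => m.Conn)) *
        (Ch.Hev.map (h.ev 0 φ nC) (F.lce F.cone (0, eC))).1 := by
    rw [h.cl_ev, e1, hC, Ch.Hev.coe_map, e1, Wt.lce_val, Wt.rs_lc]
  rw [mul_congr (ind_mem _) (mul_congr (ind_mem _) (k _ _ _ _ hA) (k _ _ _ _ hB)) kC]
  refine fun z => a2 ?_
  have v : ∀ i (n : Ch.Mk ν (Fin 0)),
      Ch.Hev.map (h.ev 0 φ n) (F.lce F.cone (0, (E i ⬝ᵥ φ).sign • E i)) =
      ((E i ⬝ᵥ φ).sign : ℂ) • Ch.Hev.map (h.ev 0 φ n) (F.lce F.cone (0, E i)) := fun i n => by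
    rw [← map_smul (Ch.Hev.map (h.ev 0 φ n)), Int.cast_smul_eq_zsmul, ← map_zsmul, Prod.smul_mk,
      smul_zero]
  rw [H.map_smulC, map_mul (H.map _), Finset.prod_congr rfl fun i _ => v i _]
  exact intg_alg (L := fun i => Ch.Hev.map
    (h.ev 0 φ (i.elim nC (Sum.elim (fun _ => nA) fun _ => nB))) (F.lce F.cone (0, E i))) _ _ _ z

end Vale.Agent.P269
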