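import Vale.Agent.P287Q.Cnt.Sec
import Vale.Agent.P287Q.G.G3.KeyG
import Vale.Agent.P287Q.G.G3.Mod
import Vale.Agent.P287Q.G.Bas.Lv
import Vale.Agent.P287Q.Int.Lat
import Vale.Agent.P269.Orb.LC
import Vale.Agent.P269.LG.TopA

/-!
# Integrals that localise at a point cut out by sections at the marked points
-/

set_option linter.unusedSectionVars false

namespace Vale.Agent.P269

open Set Function Topology Filter P291Z Holo Orb Mono Module

namespace Cnt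

section top

variable {X Y Z : Type} [TopologicalSpace X] [TopologicalSpace Y] [TopologicalSpace Z]

theorem ind_fn {Y : Type} (B : Set Y) : ind B = fn (B.indicator 1) := Coch.ext fun l => by
  classical
  change (if ∃ y ∈ B, l = [y] then (1 : ℂ) else 0) = _
  match l with
  | [] => exact if_neg (by simp)
  | [x] => simp [fn_val, indicator_apply]
  | _ :: _ :: _ => exact if_neg (by simp)

theorem ind_van {U : Set X} {x : X} {c : ℂ} (h : ∀ᶠ y in 𝓝 x, U.indicator 1 y = c) :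
    ind U - c • 1 ∈ Van x := by
  rw [ind_fn, ← fn_const, ← fn_sub, fn_van]
  exact h.mono fun _ => sub_eq_zero.2

theorem supp_ind {U : Set X} (hU : IsClopen U) (f : C(X, Y)) (a : Coch Y) :
    supp (ind U * pull f a) ⊆ U ∩ f ⁻¹' supp a := fun x hx =>
  ⟨by_contra fun b => by
    have := ind_van (c := 0) (mem_of_superset (hU.compl.isOpen.mem_nhds b) fun _ c =>
      indicator_of_notMem c _)
    rw [zero_smul, sub_zero] at this
    exact this (supp_mul _ _ hx).1, supp_pull f.continuous a (supp_mul _ _ hx).2⟩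

/-- the pull-back of a point class to an open and closed set -/
theorem loc_pt {U : Set X} (hU : IsClopen U) (f : C(X, Y)) {y : Y} {a t : Coch Y} {B : Set Y}
    (h1 : supp a ⊆ {y}) (h2 : Isol {y} B) (h3 : LCoh {y} a t) :
    supp (ind U * pull f a) ⊆ U ∩ f ⁻¹' {y} ∧ Isol (U ∩ f ⁻¹' {y}) (f ⁻¹' B) ∧
      LCoh (U ∩ f ⁻¹' {y}) (ind U * pull f a) (pull f t) := by
  have e : ∀ {B}, Isol {y} B → Isol (U ∩ f ⁻¹' {y}) (f ⁻¹' B) := fun h x hx =>
    ((h.preimage f.continuous x hx.2).and (hU.isOpen.mem_nhds hx.1)).mono fun _ b c => ⟨b.2, b.1 c⟩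
  refine ⟨(supp_ind hU f a).trans (inter_subset_inter_right _ (preimage_mono h1)),
    e h2, (LCoh.of_van fun x hx => ?_).trans
      ((h3.pull f.continuous).mono inter_subset_right (e (.of_subset subset_rfl)))⟩
  have := Van.mul_right (ind_van (c := 1) (mem_of_superset (hU.isOpen.mem_nhds hx.1) fun _ c =>
    indicator_of_mem c _)) (pull f a)
  rwa [one_smul, sub_mul, one_mul] at this

/-- a class whose support misses the image of a piece dies on the piece -/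
theorem ind_mul_eq_zero {U : Set X} (hU : IsClopen U) (f : C(X, Y)) {a : Coch Y}
    (ha : supp (δ a) = ∅) (h : ∀ x ∈ U, f x ∉ supp a) : hcls (ind U) * H.map f (hcls a) = 0 := by
  have c := cocycle_mul (cocycle_ind' hU) (cocycle_pull f.continuous ha)
  rw [H.map_hcls f ha, ← hcls_mul (cocycle_ind' hU) (cocycle_pull f.continuous ha), hcls_eq_zero c]
  refine ⟨0, eq_empty_of_forall_notMem fun x hx => ?_⟩
  rw [map_zero, sub_zero] at hx
  exact h x (supp_ind hU f a hx).1 (supp_ind hU f a hx).2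

theorem ind_mul_congr {U : Set X} (hU : IsClopen U) {f g : C(X, Y)} (h : ∀ x ∈ U, f x = g x)
    (c : H Y) : hcls (ind U) * H.map f c = hcls (ind U) * H.map g c :=
  ind_fn U ▸ LG.TopP.ind_mul_map hU h c

theorem ind_mem (U : Set X) : hcls (ind U) ∈ Ch.Hev X :=
  Ch.mem_Hev (k := 0) (hcls_isDeg (ind_fn U ▸ isDeg_fn _))

theorem mul_congr {s x y x' y' : H X} (hs : s ∈ Ch.Hev X) (h : s * x = s * y)
    (h' : s * x' = s * y') : s * (x * x') = s * (y * y') := by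
  rw [← mul_assoc, h, Ch.Hev.commute hs y, mul_assoc, h', ← mul_assoc, ← Ch.Hev.commute hs y,
    mul_assoc]

/-- maps that factor through a subspace on a piece -/
theorem exists_lift [Nonempty Z] {i : C(Z, Y)} (hi : IsEmbedding i) {U : Set X} (hU : IsClopen U)
    (f : C(X, Y)) (h : ∀ x ∈ U, f x ∈ range i) : ∃ e : C(X, Z), ∀ x ∈ U, i (e x) = f x := by
  classical
  have k : ∀ x, U.piecewise f (fun _ => i (Classical.arbitrary Z)) x ∈ range i := fun x => by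
    by_cases a : x ∈ U
    · exact (piecewise_eq_of_mem _ _ _ a).symm ▸ h x a
    · exact (piecewise_eq_of_notMem _ _ _ a).symm ▸ ⟨_, rfl⟩
  refine ⟨⟨fun x => invFun i (U.piecewise f (fun _ => i (Classical.arbitrary Z)) x),
    hi.continuous_iff.2 ?_⟩, fun x hx => (invFun_eq (k x)).trans (piecewise_eq_of_mem _ _ _ hx)⟩
  exact (Continuous.piecewise (fun a ha => by rw [hU.frontier_eq] at ha; exact ha.elim)
    f.continuous continuous_const).congr fun x => (invFun_eq (k x)).symm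

theorem exists_ext [Nice X] {n : ℕ} {r : X → Fin n → ℂ} {x : X}
    (h : ∀ᶠ y in 𝓝 x, ContinuousAt r y) : ∃ G : C(X, Fin n → ℂ), ∀ᶠ y in 𝓝 x, G y = r y := by
  obtain ⟨C, a, b, c⟩ := exists_mem_nhds_isClosed_subset h
  obtain ⟨G, e⟩ := ContinuousMap.exists_restrict_eq b ⟨fun y : C => r y,
    continuous_iff_continuousAt.2 fun y => (c y.2).comp continuous_subtype_val.continuousAt⟩
  exact ⟨G, mem_of_superset a fun y k => (DFunLike.congr_fun e ⟨y, k⟩ :)⟩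

/-- the top cohomology of a connected space is a line -/
theorem top_smul [Nice X] [CompactSpace X] [PreconnectedSpace X] {d : ℤ} {β : BM X} (ho : Ori d β)
    {c c' : H X} (hc : H.IsDeg d c) (hc' : H.IsDeg d c') (h0 : c ≠ 0) : ∃ t : ℂ, c' = t • c := by
  have k : ∀ {c : H X}, H.IsDeg d c → Loc.intg β c = 0 → c = 0 := fun hc h0 =>
    P287Q.Zc.ZLat.nondeg_deg ho hc fun y hy => by
      rw [sub_self] at hy
      obtain ⟨a, ha, h1, rfl⟩ := H.isDeg_iff.1 hy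
      rw [h1.eq_fn] at ha
      obtain ⟨t, ht⟩ := (cocycle_fn.1 ha).exists_eq_const
      rw [show hcls a = t • 1 by
        rw [h1.eq_fn, ht, ← hcls_one, ← hcls_smul t cocycle_one, ← fn_const]; rfl,
        smul_mul_assoc, one_mul, map_smul, h0, smul_zero]
  refine ⟨Loc.intg β c' / Loc.intg β c, sub_eq_zero.1 (k ((H.deg X d).sub_mem hc' ((H.deg X d).smul_mem _ hc)) ?_)⟩
  rw [map_sub, map_smul, smul_eq_mul, div_mul_cancel₀ _ (mt (k hc) h0), sub_self]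

end top

variable {A W : Type} [NormedRing A] [NormedAlgebra ℂ A] [NormedAddCommGroup W] [NormedSpace ℂ W]

/-- The trivial line bundle. -/
@[reducible] def trL (A W : Type) : Ch.SD A W ℂ := ⟨fun _ v => v, ⊤, fun _ => ⊤, fun _ => ⊥⟩

theorem trL_ok (act : A → W → W) (S : Set W) : (trL A W).Ok act S (0 + 1) 0 :=
  ⟨inferInstance, ⟨fun _ _ _ _ => trivial, fun _ _ _ _ _ _ => rfl, fun _ _ _ _ _ => rfl,
    fun _ _ => rfl, fun _ _ _ _ _ _ => rfl, fun _ _ => continuous_const⟩,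
    ⟨fun _ _ => le_rfl, isClosed_univ, fun _ _ => by simp, fun _ _ _ _ _ _ => trivial⟩,
    ⟨fun _ _ => bot_le, isClosed_eq continuous_snd continuous_const, fun _ _ => finrank_bot _ _,
      fun _ _ _ _ _ h => h⟩, fun _ _ => bot_le⟩

variable [FiniteDimensional ℂ A] [FiniteDimensional ℂ W] {act : A → W → W} {S : Set W}
  [IsAct act univ] [FP act S] {n : ℕ}

/-- a point class given by holomorphic coordinates -/
theorem exists_pt (h : Tq.Dim act S n) (x₀ : S) :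
    ∃ (a : Coch (Quo act S)) (G : C(Quo act S, Fin n → ℂ))
    (g : W → Fin n → ℂ), supp (δ a) = ∅ ∧ supp a ⊆ {Quo.mk act x₀} ∧ IsDeg (2 * n) a ∧
      G (Quo.mk act x₀) = 0 ∧ Isol {Quo.mk act x₀} (G ⁻¹' {0}) ∧
      LCoh {Quo.mk act x₀} a (pull G (tau n)) ∧ AnalyticAt ℂ g x₀ ∧
      ∀ᶠ x in 𝓝 x₀.1, ∀ hx : x ∈ S, G (Quo.mk act ⟨x, hx⟩) = g x := by
  obtain ⟨φ, hφ, rfl⟩ := h.holOrb.slice (x₀ : Sp act S)
  obtain ⟨w, κ, h1, h2, -, h3⟩ := hφ.exists_coord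
  obtain ⟨r, r0, r1, r2, r3⟩ := (LH.quot Sp.isOpenQuotientMap_mk (fun _ _ => Sp.mk_eq_iff) hφ.1
    (FP.free _)).exists_inv
  obtain ⟨G, e⟩ := exists_ext r1.eventually_cont
  have i : Isol {(φ 0).mk} (G ⁻¹' {0}) := fun _ k => k ▸ (e.and r3).mono fun y a b =>
    a.2.symm.trans (congrArg (fun z => (φ z).mk) (a.1.symm.trans b))
  obtain ⟨a, b⟩ := loc_spec isClosed_singleton
    (i.mono fun y k => supp_tau n (supp_pull G.continuous _ k))
  refine ⟨_, G, w, cocycle_of_supp (fun x _ => supp_eq_empty.1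
    (cocycle_pull G.continuous (tau_cocycle n)) x) a b, a, loc_deg _ ((tau_deg n).pull _),
    e.self_of_nhds.trans r0, i, .of_van fun x k => van_symm (b x k), h1, ?_⟩
  have c := h1.continuousAt.tendsto.comp Sp.continuous_val.continuousAt
  have d := h2.self_of_nhds
  rw [one_smul] at d
  rw [d] at c
  have k : ∀ᶠ t : Sp act S in 𝓝 (φ 0), G t.mk = w t.val := by
    filter_upwards [h3, Sp.continuous_mk.continuousAt.eventually e, c.eventually r2] with t a b c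
    rw [b, ← a, Sp.mk_smul, a]
    exact c
  rw [Sp.isEmbedding_val.nhds_eq_comap, eventually_comap] at k
  exact k.mono fun x k hx => k (.of act x hx) rfl

end Cnt

namespace Ch

open Cnt Base

variable {S Λ R J K ι ν κ : Type} [Fintype S] [Fintype Λ] [Fintype R] [Fintype J] [Fintype K]
  [Fintype ι] [DecidableEq ι] [Fintype ν] [Fintype κ] {ch : Ch ι J} {F : Fam S Λ R J K}
  {e : K → ι → ℕ} {K₀ : RD R} {ℓ : R → ι → ℤ} {S₀ O M Z : Set (ch.WF ν κ Λ)} {d n₀ : ℕ}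

theorem an_vl' {x₀ : ch.WF ν κ Λ} (n : Mk ν κ) (hx : x₀ ∈ ch.solF ν κ F) :
    ∃ Φ : ch.WF ν κ Λ → (Λ → ℂ) × (J → ℂ), AnalyticAt ℂ Φ x₀ ∧ Φ x₀ = vl x₀ n ∧
      ∀ᶠ x in 𝓝 x₀, x ∈ ch.solF ν κ F → vl x n = Φ x := by
  have hb := hx.1.2.1
  choose Ψ h3 h4 using fun j => exists_an_fld hb.1 (crv_ne (hb.2.2.2.1 n).1) j
  have h1 : AnalyticAt ℂ (fun x : ch.WF ν κ Λ => (x.2, x.2.p n)) x₀ :=
    analyticAt_snd.prod (W.an_p analyticAt_snd n)
  suffices ∀ᶠ x in 𝓝 x₀, x ∈ ch.solF ν κ F → vl x n = (x.1, fun j => Ψ j (x.2, x.2.p n)) from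
    ⟨_, analyticAt_fst.prod (AnalyticAt.pi fun j => (h3 j).comp_of_eq h1 rfl),
      (this.self_of_nhds hx).symm, this⟩
  filter_upwards [h1.continuousAt.eventually (eventually_all.2 h4)] with x a b
  have c := (b.1.2.1.2.2.2.1 n).1
  exact Prod.ext rfl (funext fun j => a j c (((mem_solF.1 b).2 _ c).1 j))

theorem GZ.jt_sc (h : GZ F ℓ Z) (n : Mk ν κ) {T ψ w s} (hs : F.Sc T ψ w s) :
    (trL _ _).Jt (actF F.toWt) (fun a => chT ψ w (θv ℓ n a)) 0 (fun q => s (vl q.1 n))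
      {q | q.1 ∈ ch.solF ν κ F ∧ vl q.1 n ∈ T} :=
  ⟨(hm_θv ℓ n).comp (hm_chT _ _), hs.cont.comp
    ((continuousOn_vl n).comp continuousOn_fst fun _ a => a.1) fun _ a => a.2, fun _ a _ _ b =>
      have c := hs.eqv _ ((hm_θv ℓ n).isUnit a) _ b.2
      ⟨⟨actF_mem_solF h.inv a b.1, (vl_actF h.wt a b.1 n).symm ▸ c.1⟩,
        (congrArg s (vl_actF h.wt a b.1 n)).trans c.2⟩,
    fun _ _ _ _ b _ _ => ⟨b, by rw [pow_zero, one_mul]⟩⟩

theorem GZ.cl_lc' (h : GZ F ℓ Z) (n : Mk ν κ) {A : Set _} [FP F.actT A] (hA : ∀ x ∈ Z, vl x n ∈ A)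
    (ψ : S → ℤ) (w : R → ℤ) : H.map (h.eqh_vl n hA).toEqv.qm (F.lc A ψ w) =
      Tq.lcq (actF F.toWt) Z fun a => chT ψ w (θv ℓ n a) :=
  haveI := h.act
  map_lcq' h.orb (Tq.orb _ _) (h.eqh_vl n hA) (hm_chT _ _)

theorem Vd.pos_sec (h : Vd F e S₀ O M d) (hs : ch.Std F e K₀ ℓ) [CompactSpace (ModS F S₀)]
    {I : Type} [Fintype I] (n : I → Mk ν κ) {T} {ψ : I → S → ℤ} {w : I → R → ℤ}
    {s : I → _ → ℂ} (hT : ∀ q, F.Sc T (ψ q) (w q) (s q))
    {A : Set (ModS F S₀)} (hA : IsClosed A) (y : ↥(ch.solF ν κ F ∩ S₀)) (hy : y.1 ∈ M)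
    (hyA : Quo.mk _ y ∈ A)
    (lev : ∀ x : ↥(ch.solF ν κ F ∩ S₀), Quo.mk _ x ∈ A → ∀ q, vl x.1 (n q) ∈ T)
    (iff : ∀ x : ↥(ch.solF ν κ F ∩ S₀), Quo.mk _ x ∈ A → (∀ q, s q (vl x.1 (n q)) = 0) →
      Quo.mk (actF F.toWt) x = Quo.mk _ y) (z₀ : ∀ q, s q (vl y.1 (n q)) = 0)
    {a : Coch (ModS F S₀)} (ha : supp (δ a) = ∅) (hs' : supp a ⊆ A) {G : C(ModS F S₀, Fin n₀ → ℂ)}
    (hG : ∀ z ∈ A, G z = 0) (hI : Isol A (G ⁻¹' {0})) (hL : LCoh A a (pull G (tau n₀)))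
    {g : ch.WF ν κ Λ → Fin n₀ → ℂ} (hg : AnalyticAt ℂ g y.1)
    (hg' : ∀ᶠ x in 𝓝 y.1, ∀ hx, G (Quo.mk _ ⟨x, hx⟩) = g x)
    (hd : (d : ℤ) = n₀ + Fintype.card I + ch.rk F ℓ K₀) {L : I → Hev (ModS F S₀)}
    (h₀ : ∀ q, (L q).1 = Tq.lcq (actF F.toWt) _ fun a => chT (ψ q) (w q) (θv ℓ (n q) a)) :
    Loc.intg (virF F e S₀) (hcls a * (∏ q, L q).1) ≠ 0 := by
  classical
  obtain ⟨k, i, hk, -⟩ := h.exists_isKP hs
  have hz := h.gz hs
  have hb : ∀ x ∈ O, x.2 ∈ ch.base (Mk ν κ) := fun x a => (h.adm (h.dom.subset a)).1.2.1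
  have t := h.dom.sub y.2
  have a1 : finrank ℂ (vanM F e y.1 ⊓ ch.polF F e : Submodule ℂ (ch.P K)) = k.v :=
    hk.finrank_van ⟨y, t⟩
  have a2 : finrank ℂ (obsM F e y.1 ⊓ ch.polF F e : Submodule ℂ (ch.P K)) = k.v + k.r :=
    hk.finrank_obs (t := ⟨y, t⟩) ((h.dom.mem_Zs hk).2 y.2)
  have a3 := hs.r_eq hk (t := ⟨y, t⟩) y.2.1
  rw [show vanM F e y.1 ⊓ _ = _ from inf_eq_left.2 inf_le_left] at a1
  rw [show obsM F e y.1 ⊓ _ = _ from inf_eq_left.2 inf_le_left, ← a1] at a2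
  obtain ⟨L', L1, L2, L3, L4⟩ := hs.exists_an_mod y.2.1 a2
  choose Φ v1 v2 v3 using fun q => an_vl' (n q) y.2.1
  choose Ψ w1 w2 using fun q => (hT q).an _ (lev y hyA q)
  have := h.dom.isAct
  have := hz.act
  have := h.dom.pos h.cyc hk (trL_ok _ _) (fun q => hz.jt_sc (n q) (hT q)) 0 hA y hy hyA
    (fun x a _ _ _ q _ => ⟨x.2.1, lev x a q⟩) (fun x a _ _ _ e => iff x a e)
    (u := fun _ => 1) analyticAt_const (.of_forall fun _ _ => ⟨trivial, one_ne_zero⟩)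
    (Φ := fun q x => Ψ q (Φ q x)) (fun q => (w1 q).comp_of_eq (v1 q) (v2 q))
    (fun q => ((v3 q).and (((v1 q).continuousAt.tendsto.mono_right (by rw [v2])).eventually
      (w2 q))).mono fun x a b =>
      (congrArg (s q) (a.1 b.1)).trans (a.2 (a.1 b.1 ▸ b.2))) z₀
    L1 L2 (L3.mono fun x a b => a (hb x b)) L4 ha hs' hG hI hL hg hg' (by omega)
    (Ψ := ⟨_, neg_mem (mem_Hev (k := 1) (hcls_isDeg ((trL_ok _ _).deg hz.orb)))⟩) (C := L) rfl h₀
  rw [h.virF_eq hk]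
  simpa only [zero_smul, zero_add] using this

end Ch

end Vale.Agent.P269
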