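import Vale.Agent.P287Q.Us.Defs

/-!
# Linear spaces in multicones, rulings (definitions)
-/

namespace Vale.Agent.P287Q

open Set Function Topology Filter MvPolynomial

variable {J R J₀ R₀ I : Type} [Fintype J] [Fintype R] [Fintype J₀] [Fintype R₀] [Fintype I]
  [DecidableEq R]

/-- `s` parametrises a linear space in `A` whose lines have degree `φ`; the homogeneous coordinates
are linear forms on the block `r₀`. -/
structure LnF (π : J → R) (A : Set (J → ℂ)) (φ : R → ℤ) (r₀ : R) (s : (I → ℂ) → J → ℂ) : Prop where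
  an : ∀ v ≠ 0, AnalyticAt ℂ s v
  mem : ∀ v ≠ 0, s v ∈ A
  hom : ∀ c : ℂ, c ≠ 0 → ∀ v ≠ 0, s (c • v) = scl π (fun r => c ^ φ r) (s v)
  one : φ r₀ = 1
  crd : ∀ a, ∃ f : MvPolynomial J ℂ, WHom (bw π) (Pi.single r₀ 1) f ∧ ∀ v ≠ 0, eval (s v) f = v a

/-- A chart `Θ` of `A` along the line `x`, equivariant for the weights `e` of the coordinates. -/
structure Cht (π : J → R) (A : Set (J → ℂ)) (φ : R → ℤ) (e : I → ℤ) (Θ : (I → ℂ) → J → ℂ)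
    (x : (Fin 2 → ℂ) → I → ℂ) : Prop where
  anx : ∀ v ≠ 0, AnalyticAt ℂ x v
  homx : ∀ c : ℂ, c ≠ 0 → ∀ v ≠ 0, ∀ i, x (c • v) i = c ^ e i * x v i
  an : ∀ v ≠ 0, AnalyticAt ℂ Θ (x v)
  mem : ∀ v ≠ 0, ∀ᶠ y in 𝓝 (x v), Θ y ∈ A
  hom : ∀ c : ℂ, c ≠ 0 → ∀ v ≠ 0, ∀ᶠ y in 𝓝 (x v),
    Θ (fun i => c ^ e i * y i) = scl π (fun r => c ^ φ r) (Θ y)
  inj : ∀ v ≠ 0, Injective (fderiv ℂ Θ (x v))

/-- There is a chart of `A` (of dimension `N`) along a line of degree `φ` with total weight `a`. -/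
def HasCht (π : J → R) (A : Set (J → ℂ)) (N : ℕ) (φ : R → ℤ) (a : ℤ) : Prop :=
  ∃ (I : Type) (_ : Fintype I) (e : I → ℤ) (Θ : (I → ℂ) → J → ℂ) (x : (Fin 2 → ℂ) → I → ℂ),
    Cht π A φ e Θ x ∧ Fintype.card I = N + Fintype.card R ∧ ∑ i, e i = a

/-- `s` parametrises the fibre of `E` over `x`. -/
structure FbL (π : J → R) (A E : Set (J → ℂ)) (i : J₀ → J) (φ : R → ℤ) (x : J₀ → ℂ) (r₀ : R)
    (s : (I → ℂ) → J → ℂ) : Prop extends LnF π A φ r₀ s where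
  ovr : ∀ v ≠ 0, s v ∘ i = x
  onto : ∀ w ∈ E, w ∘ i = x → ∃ v ≠ 0, Orb π (s v) w

/-- The curves of degree `φ` in `A` (dimension `N`) lie in the fibres of the projection of `E` to `C`
(dimension `m`), and one fibre is a projective space with coordinates `Option Q`. -/
structure Rul (π : J → R) (A : Set (J → ℂ)) (N : ℕ) (π₀ : J₀ → R₀) (C : Set (J₀ → ℂ)) (m : ℕ)
    (Q : Type) [Fintype Q] (E : Set (J → ℂ)) (i : J₀ → J) (ρ : R₀ → R) (φ : R → ℤ) : Prop where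
  inj : Injective ρ
  blk : ∀ j, π (i j) = ρ (π₀ j)
  cl : ∃ T, IsClosed T ∧ E = A ∩ T
  inv : ∀ t, IsUnit t → ∀ w ∈ E, scl π t w ∈ E
  map : ∀ w ∈ E, w ∘ i ∈ C
  zero : ∀ r, φ (ρ r) = 0
  fbr : ∃ (x : J₀ → ℂ) (r₀ : R) (s : (Option Q → ℂ) → J → ℂ), FbL π A E i φ x r₀ s
  out : ∀ w₀ ∈ A, w₀ ∉ E → ∃ j, φ (π j) ≠ 0 ∧ ∀ w ∈ A, ∀ t : R → ℂ, IsUnit t →
    (∀ j, φ (π j) = 0 → w j = t (π j) * w₀ j) → w j ≠ 0
  cht : HasCht π A N φ (m + (2 * Fintype.card Q + 1) - N)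

/-- Over the open set `O` the projection `p` is `O × ℙ¹ → O`. -/
structure GenF {n : ℕ} {B : Var (n + 1)} {X : Var n} (p : Ext B X) (ab : Bool → B.J)
    (O : Set (X.J → ℂ)) (s : (X.J ⊕ Bool → ℂ) → B.J → ℂ) : Prop where
  blk : ∀ j, B.π j = B.π (ab true) ↔ j ∈ range ab
  out : B.π (ab true) ∉ range p.iR
  sub : O ⊆ X.A
  opn : ∀ x ∈ O, O ∈ 𝓝[X.A] x
  inv : ∀ t, IsUnit t → ∀ x ∈ O, scl X.π t x ∈ O
  ne : O.Nonempty
  sct : Sct (blP Bool X.π) B.π B.A (Sum.elim p.iJ ab) {q | q ∘ .inl ∈ O ∧ q ∘ .inr ≠ 0} s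

/-- The degree of the general fibre. -/
noncomputable def GenF.deg {n : ℕ} {B : Var (n + 1)} {X : Var n} {p : Ext B X} {ab : Bool → B.J}
    {O : Set (X.J → ℂ)} {s : (X.J ⊕ Bool → ℂ) → B.J → ℂ} (h : GenF p ab O s) (r : B.R) : ℤ :=
  h.sct.eqv.choose r none

end Vale.Agent.P287Q
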