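import Vale.Agent.P287Q.Cnt.Key
import Vale.Agent.P287Q.Cnt.C1
import Vale.Agent.P287Q.Cnt.Rul
import Vale.Agent.P287Q.Cnt.Poly
import Vale.Agent.P287Q.Top.BLPRS
import Vale.Agent.P287Q.Pcs.Tor
import Vale.Agent.P287Q.Mf.Var
import Vale.Agent.P287Q.Wg.Blm0
import Vale.Agent.P287Q.Us.Sct

/-!
# Curves in the fibres of a ruling of a presented variety
-/

set_option linter.unusedSectionVars false

namespace Vale.Agent.P287Q

open Set Function Topology Filter MvPolynomial P291Z P269 P269.Cnt P269.Tq P269.Mono P269.Holo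

/-- **The canonical degree of a line.** -/
theorem HasCht.deg {J R : Type} [Fintype J] [Fintype R] [DecidableEq R] {π : J → R}
    {A : Set (J → ℂ)} {N : ℕ} {φ γ : R → ℤ} {a : ℤ} (h : HasCht π A N φ a) (hA : PV π A N)
    (hD : Det π A (N + Fintype.card R) γ) : γ ⬝ᵥ φ = a := by
  obtain ⟨I, _, e, Θ, x, c, h1, rfl⟩ := h
  obtain ⟨k, δ, g, _, b, -⟩ := chow J R Empty π (fun _ => Empty.elim) A N hA
    fun τ _ y e => mem_of_eq_of_mem (funext fun j => by simp [tw]) e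
  refine Fam.Crt.deg (F := fam π δ g) (l := 0) ⟨c.anx, c.homx, c.an,
    fun v hv => (c.mem v hv).mono fun y a => (fam_cone b).2 a,
    fun s hs v hv => (c.hom s hs v hv).mono fun y a j => ?_, c.inj⟩ (fun _ h => (h trivial).elim)
    (fam_reg b hA hD) h1
  rw [a]
  exact congrArg (fun e : ℤ => s ^ e * Θ y j) (single_one_dotProduct _ _).symm

variable {n m l : ℕ} {V : Var n} {I ν κ : Type} [Fintype I] [Fintype ν] [Fintype κ]

namespace Prs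

variable (P : Prs V)

theorem dot_up (e : P.R → ℤ) (φ : V.R → ℤ) :
    e ⬝ᵥ P.up φ = (fun s => ∑ r, e r * P.M r s) ⬝ᵥ φ := by
  simp only [dotProduct, up, Finset.mul_sum, Finset.sum_mul, mul_assoc]
  exact Finset.sum_comm

theorem actT_ι (t : (Empty → ℂ) × (P.R → ℂ)) (z : (Empty → ℂ) × (P.J → ℂ)) :
    (P.F.actT t z).2 ∘ P.ι = scl V.π (t.2 ∘ P.ρ) (z.2 ∘ P.ι) := by
  rw [← P.act_ι]
  exact funext fun j => by simp [Wt.actT]

theorem orb_act {t : (Empty → ℂ) × (P.R → ℂ)} (ht : IsUnit t) (z : (Empty → ℂ) × (P.J → ℂ)) :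
    Orb V.π (z.2 ∘ P.ι) ((P.F.actT t z).2 ∘ P.ι) :=
  ⟨_, unit_iff.2 fun _ => unit_iff.1 (Prod.isUnit_iff.1 ht).2 _, P.actT_ι t z⟩

/-- the linear space in the target -/
theorem lin [Nontrivial I] {φ : V.R → ℤ} {r₀ : V.R} {s : (I → ℂ) → V.J → ℂ}
    (h : LnF V.π V.A φ r₀ s) : ∃ f σ, P.F.Lin (I := I) 0 (P.up φ) (Pi.single (P.ρ r₀) 1)
      (fun _ => Empty.elim) f σ ∧ ∀ z, z ∈ P.F.lin 0 σ ↔
        z ∈ P.F.cone ∧ ∃ v ≠ 0, Orb V.π (s v) (z.2 ∘ P.ι) := by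
  have k := fun j => exists_poly (f := fun v => P.Φ (s v) j) (n := P.F.w j ⬝ᵥ P.up φ)
    (fun v hv => by
      obtain ⟨Ψ, a, b⟩ := P.tors.hol _ (h.mem v hv)
      refine analyticAt_pi_iff.1 (AnalyticAt.congr (g := fun v => P.Φ (s v))
        (a.comp (h.an v hv)) ?_) j
      filter_upwards [(h.an v hv).continuousAt.eventually b, isOpen_ne.mem_nhds hv] with u c d
      exact (c (h.mem u d)).symm)
    fun c hc v hv => by
      have := P.tors.eqv _ (unit_iff.2 fun r => zpow_ne_zero (φ r) hc) _ (h.mem v hv)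
      rw [← h.hom c hc v hv, act1] at this
      refine (congrFun (congrArg Prod.snd this) j).trans ?_
      simp only [zpow_dot hc]
      rfl
  choose σ k1 k2 using k
  choose f f1 f2 using h.crd
  have e : ∀ v ≠ 0, sv σ v = P.Φ (s v) := fun v hv => funext fun j => k2 j v hv
  have hl : P.F.Lin 0 (P.up φ) (Pi.single (P.ρ r₀) 1) (fun _ => Empty.elim)
      (fun a => rename P.ι (f a)) σ := by
    refine ⟨k1, fun a => Wg.whom_rename (w := P.F.w) fun α b r => ?_, fun _ _ _ r => r.elim, ?_,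
      fun a v => ?_, fun v hv => e v hv ▸ P.tors.mem _ (h.mem v hv)⟩
    · simp only [comp_apply, P.tors.w]
      by_cases c : r ∈ range P.ρ
      · obtain ⟨r, rfl⟩ := c
        simpa only [bw, Pi.single_apply, P.tors.inj'.eq_iff] using f1 a α b r
      · simp [Pi.single_eq_of_ne fun d : r = P.ρ _ => c ⟨_, d.symm⟩]
    · rw [single_one_dotProduct, P.up_ρ, h.one]
    · refine congrFun (Continuous.ext_on (dense_compl_singleton (0 : I → ℂ))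
        ((continuous_eval _).comp (continuous_pi fun j => continuous_eval (σ j)))
        (continuous_apply a) fun v hv => ?_) v
      change MvPolynomial.eval (sv σ v) _ = _
      rw [e v hv, eval_rename, P.tors.sec _ (h.mem v hv), f2 a v hv]
  refine ⟨_, σ, hl, fun z => ⟨fun hz => ⟨hl.sub P.nice.toInv hz, ?_⟩, fun ⟨a, v, b, t, c, d⟩ => ?_⟩⟩
  · obtain ⟨t, a, v, b, rfl⟩ := hz
    refine ⟨v, b, ?_⟩
    have := P.orb_act a (0, sv σ v)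
    rwa [e v b, P.tors.sec _ (h.mem v b), ← e v b] at this
  · obtain ⟨u, u1, u2⟩ := P.tors.orb z a
    rw [u2, d, P.tors.eqv t c _ (h.mem v b), ← e v b]
    exact Fam.Lin.act_mem (Prod.isUnit_iff.2 ⟨isUnit_one, u1⟩) ⟨_, unit1 fun r =>
      prod_zpow_ne (unit_iff.1 c) _, v, b, rfl⟩

variable {P} {c : AM Empty P.R P.J ν κ} {g : ℤ} {d : P.R → ℤ}

/-- **The fields of the blocks of degree zero are constant up to the torus.** -/
theorem mv (hs : c.Sol P.F) (hc : c.Conn) (ht : c.Typ g d) (z z' : c.X) :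
    ∃ t : V.R → ℂ, IsUnit t ∧ ∀ j, d (P.ρ (V.π j)) = 0 →
      (c.vl z').2 (P.ι j) = t (V.π j) * (c.vl z).2 (P.ι j) := by
  have k : ∀ r, ∃ a ≠ (0 : ℂ), ∀ j, V.π j = r → d (P.ρ r) = 0 →
      c.y (P.ι j) z' = a * c.y (P.ι j) z := fun r => by
    by_cases h : d (P.ρ r) = 0
    · obtain ⟨a, b, e⟩ := exists_prop (m := c) (L := c.L (P.ρ r))
        (s := fun j : {j // V.π j = r} => c.y (P.ι j)) hc ((ht.2 _).trans h) (fun j => by
          have := hs.2.1 (P.ι j)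
          rwa [P.tors.w, j.2, Cv.bz_single, zpow_one] at this)
        (fun x => let ⟨j, a, b⟩ := V.pv.sub (P.tors.maps _ (hs.2.2 x)) r; ⟨⟨j, a⟩, b⟩) z z'
      exact ⟨a, b, fun j u _ => e ⟨j, u⟩⟩
    · exact ⟨1, one_ne_zero, fun _ _ u => (h u).elim⟩
  choose t a b using k
  exact ⟨t, unit_iff.2 a, fun j => b _ j rfl⟩

/-- the projection along contracted blocks -/
theorem mv_orb {J₀ R₀ : Type} {π₀ : J₀ → R₀} {i : J₀ → V.J} {ρ : R₀ → V.R}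
    (hb : ∀ j, V.π (i j) = ρ (π₀ j)) (h0 : ∀ r, d (P.ρ (ρ r)) = 0) (hs : c.Sol P.F) (hc : c.Conn)
    (ht : c.Typ g d) (z z' : c.X) :
    Orb π₀ ((c.vl z).2 ∘ P.ι ∘ i) ((c.vl z').2 ∘ P.ι ∘ i) :=
  let ⟨t, a, b⟩ := mv hs hc ht z z'
  ⟨t ∘ ρ, Pi.isUnit_iff.2 fun _ => Pi.isUnit_iff.1 a _, funext fun j =>
    (b (i j) (hb j ▸ h0 _)).trans (congrArg (t · * _) (hb j))⟩

/-- **Contracted curves are mapped to points.** -/
theorem mv_q {X : Var m} (p : Ext V X) (h0 : ∀ r, d (P.ρ (p.iR r)) = 0) (hs : c.Sol P.F)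
    (hc : c.Conn) (ht : c.Typ g d) (z z' : c.X) (h h') :
    p.q (P.q (Quo.mk _ ⟨c.vl z, h⟩)) = p.q (P.q (Quo.mk _ ⟨c.vl z', h'⟩)) :=
  Quot.sound (mv_orb p.blk h0 hs hc ht z z')

theorem deg_fld (hs : c.Sol P.F) (ht : c.Typ g d) {j : V.J} (h : ∀ z, (c.vl z).2 (P.ι j) ≠ 0) :
    d (P.ρ (V.π j)) = 0 := by
  have := (hs.2.1 (P.ι j)).1
  rw [P.tors.w, Cv.bz_single, zpow_one] at this
  exact (ht.2 _).symm.trans (Cv.deg_of_ne this h)

end Prs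

theorem exists_lift_orb {J R J₀ R₀ : Type} {π : J → R} {π₀ : J₀ → R₀} {i : J₀ → J} {ρ : R₀ → R}
    (hρ : Injective ρ) (hb : ∀ j, π (i j) = ρ (π₀ j)) {w : J → ℂ} {x : J₀ → ℂ}
    (h : Orb π₀ (w ∘ i) x) : ∃ t, IsUnit t ∧ scl π t w ∘ i = x := by
  obtain ⟨t, a, rfl⟩ := h
  refine ⟨extend ρ t 1, Pi.isUnit_iff.2 fun r => ?_, funext fun j => ?_⟩
  · by_cases c : ∃ s, ρ s = r
    · obtain ⟨s, rfl⟩ := c
      rw [hρ.extend_apply]
      exact Pi.isUnit_iff.1 a s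
    · rw [extend_apply' _ _ _ c]
      exact isUnit_one
  · simp only [scl, comp_apply, hb, hρ.extend_apply]

section

variable {J₀ R₀ Q : Type} [Fintype J₀] [Fintype R₀] [Fintype Q] {π₀ : J₀ → R₀} {C : Set (J₀ → ℂ)}
  {E : Set (V.J → ℂ)} {i : J₀ → V.J} {ρ : R₀ → V.R} {φ : V.R → ℤ} {x : J₀ → ℂ} {r₀ : V.R}
  {s : (I → ℂ) → V.J → ℂ} {P : Prs V} {c : AM Empty P.R P.J ν κ} {g : ℤ} {d : P.R → ℤ}

theorem FbL.orb (h : FbL V.π V.A E i φ x r₀ s) (hρ : Injective ρ) (hb : ∀ j, V.π (i j) = ρ (π₀ j))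
    (hE : ∀ t, IsUnit t → ∀ w ∈ E, scl V.π t w ∈ E) {w : V.J → ℂ} (hw : w ∈ E)
    (ho : Orb π₀ (w ∘ i) x) : ∃ v ≠ 0, Orb V.π (s v) w :=
  let ⟨t, a, b⟩ := exists_lift_orb hρ hb ho
  let ⟨v, c, d⟩ := h.onto _ (hE t a w hw) b
  ⟨v, c, d.trans (Orb.symm ⟨t, a, rfl⟩)⟩

/-- **The degree of a contracted curve that meets a linear fibre.** -/
theorem FbL.deg [Nontrivial I] (h : FbL V.π V.A V.A i φ x r₀ s) (hρ : Injective ρ)
    (hb : ∀ j, V.π (i j) = ρ (π₀ j)) (h0 : ∀ r, d (P.ρ (ρ r)) = 0) (hs : c.Sol P.F) (hc : c.Conn)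
    (ht : c.Typ g d) {z : c.X} (hz : Orb π₀ ((c.vl z).2 ∘ P.ι ∘ i) x) : ∃ k : ℕ, d = k • P.up φ :=
  let ⟨_, _, a, b⟩ := P.lin h.toLnF
  a.exists_deg P.good hs ht fun y => (b _).2 ⟨hs.2.2 y, h.orb hρ hb V.pv.inv
    (P.tors.maps _ (hs.2.2 y)) ((Prs.mv_orb hb h0 hs hc ht y z).trans hz)⟩

/-- **The curves of a ruling lie in `E`.** -/
theorem Rul.mem (h : Rul V.π V.A n π₀ C m Q E i ρ φ) (hd : ∀ r, d (P.ρ r) = 0 ↔ φ r = 0)
    (hs : c.Sol P.F) (hc : c.Conn) (ht : c.Typ g d) (z : c.X) : (c.vl z).2 ∘ P.ι ∈ E := by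
  by_contra e
  obtain ⟨j, a, b⟩ := h.out _ (P.tors.maps _ (hs.2.2 z)) e
  refine a ((hd _).1 (Prs.deg_fld hs ht fun y => ?_))
  obtain ⟨t, u, v⟩ := Prs.mv hs hc ht z y
  exact b _ (P.tors.maps _ (hs.2.2 y)) t u fun j k => v j ((hd _).2 k)

end

/-- **The number of lines of a ruling through three constraints does not vanish.** -/
theorem Rul.cnt {Z : Var m} {Y : Var l} {Q : Type} [Fintype Q] [Nonempty Q] {E : Set (V.J → ℂ)}
    {i : Z.J → V.J} {ρ : Z.R → V.R} {φ : V.R → ℤ} (h : Rul V.π V.A n Z.π Z.A m Q E i ρ φ)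
    (P : Prs V) {D : ℕ} (hD : P.F.BigD P.k D) {nA nB nC : Ch.Mk ν (Fin 0)} (t : Tri nA nB nC)
    (p : Ext V Y) (j : Ext Z Y) (hj : i ∘ j.iJ = p.iJ) {eA eB eC : P.R → ℤ}
    (wA : eA ⬝ᵥ P.up φ ≠ 0) (wB : eB ⬝ᵥ P.up φ ≠ 0) (wC : eC ⬝ᵥ P.up φ ≠ 0) {a b : H Y.X}
    (hω : H.IsDeg (2 * m) (j.pb (a * b))) (h0 : j.pb (a * b) ≠ 0) :
    Loc.intg (P.F.vir (Fin 0) P.k D 0 (P.up φ) 0) (hcls (ind (P.F.sel fun m => m.Conn)) *
      (P.F.cl _ (.ev nA P.F.cone (P.pb (p.pb a) * P.F.lc P.F.cone 0 eA ^ Fintype.card Q)) *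
        P.F.cl _ (.ev nB P.F.cone (P.pb (p.pb b) * P.F.lc P.F.cone 0 eB ^ Fintype.card Q)) *
        P.F.cl _ (.ev nC P.F.cone (P.F.lc P.F.cone 0 eC)))) ≠ 0 := by
  classical
  obtain ⟨x, r₀, s, hf⟩ := h.fbr
  obtain ⟨f, σ, hl, ml⟩ := P.lin hf.toLnF
  obtain ⟨T, T1, T2⟩ := h.cl
  have c0 : Continuous fun z : (Empty → ℂ) × (P.J → ℂ) => z.2 ∘ P.ι := by fun_prop
  have sub : {z | z ∈ P.F.cone ∧ z.2 ∘ P.ι ∈ E} ⊆ P.F.cone := fun _ a => a.1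
  have := P.good.fp
  have := P.good.fp_of sub
    (fun t u z v => ⟨P.good.cone_act u v.1, (P.orb_act u z).mem h.inv v.2⟩) (by
      have := P.good.lc_cone.inter (T1.preimage c0).isLocallyClosed
      rwa [show P.F.cone ∩ _ = {z | z ∈ P.F.cone ∧ z.2 ∘ P.ι ∈ E} from Set.ext fun z =>
        and_congr_right fun a => T2 ▸ (and_iff_right (P.tors.maps z a)).symm] at this)
  have q : Eqv P.F.actT (scl Z.π) {z | z ∈ P.F.cone ∧ z.2 ∘ P.ι ∈ E} Z.A fun z => z.2 ∘ P.ι ∘ i :=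
    ⟨fun z a => h.map _ a.2, Continuous.continuousOn (by fun_prop), fun t u z _ =>
      Orb.comp h.blk (x := z.2 ∘ P.ι) (P.orb_act u z)⟩
  have k : ∀ (a : H Y.X) e, P.F.rs sub (P.pb (p.pb a) * P.F.lc P.F.cone 0 e ^ Fintype.card Q) =
      H.map q.qm (j.pb a) * (∏ _j : Q, P.F.lce _ (0, e)).1 := fun a e => by
    rw [map_mul, map_pow, Wt.rs_lc, Finset.prod_const, Subalgebra.coe_pow, Wt.lce_val]
    refine congrArg (· * _) (((H.map_map _ _ _).trans (H.map_map _ _ _)).trans (Eq.trans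
      (congrArg (H.map · a) (ContinuousMap.ext fun z => ?_)) (H.map_map _ _ _).symm))
    obtain ⟨z, rfl⟩ := mk_surj z
    exact congrArg (Quo.mk _) (Subtype.ext (congrArg (z.1.2 ∘ P.ι ∘ ·) hj.symm))
  rw [map_mul] at hω h0
  refine Fam.Ab.cnt ⟨P.good, P.reg, P.B, P.abs, P.big, hD⟩ hl t (Classical.arbitrary Q)
    (q := q.qm) (pr := fun z => z.2 ∘ P.ι ∘ i) ⟨sub, fun z => ⟨_, rfl⟩, fun z _ =>
      analyticAt_pi_iff.2 fun j => analyticAt_pi_iff.1 analyticAt_snd _, fun c u v w y y' =>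
        have e := fun z => And.intro (u.2.2 z) (h.mem (fun r => by rw [P.up_ρ]) u v w z)
        ⟨e y, e y', Quot.sound (Prs.mv_orb h.blk (fun r => (P.up_ρ φ _).trans (h.zero r))
          u v w y y')⟩⟩
    (fun z z' u v => ?_) (n₀ := m) Z.qm.dim ?_ (fun _ => wA) (fun _ => wB) wC (k a eA) (k b eB)
    (Wt.rs_lc _ _ _) hω h0
  · obtain ⟨-, w, w1, w2⟩ := (ml _).1 u
    obtain ⟨g, e⟩ := Sp.mk_eq_iff.1 v
    exact (ml _).2 ⟨z.2.1, hf.orb h.inj h.blk h.inv z.2.2 (Orb.trans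
      ⟨g, g.isUnit, (congrArg Sp.val e).symm⟩ (hf.ovr w w1 ▸ (w2.comp h.blk).symm))⟩
  · rw [P.dot_up, h.cht.deg V.pv P.det]
    push_cast
    ring

end Vale.Agent.P287Q
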