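import Vale.Agent.P287Q.Cnt.Uni

/-!
# Sections over a linear fibre
-/

set_option linter.unusedSectionVars false

namespace Vale.Agent.P269

open P291Z Set Function Topology Filter MvPolynomial Cnt

variable {S Λ R J K I : Type} [Fintype S] [Fintype Λ] [Fintype R] [Fintype J] [Fintype K]
  [Fintype I]

/-- `s` is a holomorphic section of weights `ψ`, `e` over the invariant set `T`. -/
structure Wt.Sc (W : Wt S Λ R J) (T : Set ((Λ → ℂ) × (J → ℂ))) (ψ : S → ℤ) (e : R → ℤ)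
    (s : (Λ → ℂ) × (J → ℂ) → ℂ) : Prop where
  eqv : ∀ t, IsUnit t → ∀ z ∈ T, W.actT t z ∈ T ∧
    s (W.actT t z) = (∏ i, t.1 i ^ ψ i) * (∏ r, t.2 r ^ e r) * s z
  an : ∀ z ∈ T, ∃ Φ, AnalyticAt ℂ Φ z ∧ ∀ᶠ z' in 𝓝 z, z' ∈ T → s z' = Φ z'

theorem Wt.Sc.cont {W : Wt S Λ R J} {T ψ e s} (h : W.Sc T ψ e s) : ContinuousOn s T := fun z hz =>
  let ⟨_, a, b⟩ := h.an z hz
  a.continuousAt.continuousWithinAt.congr_of_eventuallyEq_of_mem (eventually_nhdsWithin_iff.2 b) hz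

namespace Cnt

theorem an_ev {P : Type} [NormedAddCommGroup P] [NormedSpace ℂ P] {y : P → J → ℂ} {x : P}
    (hy : AnalyticAt ℂ y x) (p : MvPolynomial J ℂ) : AnalyticAt ℂ (fun x => eval (y x) p) x :=
  (AnalyticOnNhd.eval_mvPolynomial p _ trivial).comp hy

variable (F : Fam S Λ R J K) (f : I → MvPolynomial J ℂ) (σ : J → MvPolynomial I ℂ)

/-- The gauge of a point of the linear space. -/
noncomputable def gz (y : J → ℂ) : R → ℂ := Classical.epsilon fun t => (∀ r, t r ≠ 0) ∧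
  ∀ j, y j = (∏ r, t r ^ F.w j r) * sv σ (fun a => eval y (f a)) j

/-- The section of weight `e` that restricts to `p ^ k`. -/
noncomputable def lsec (e : R → ℤ) (p : MvPolynomial J ℂ) (k : ℕ) (z : (Λ → ℂ) × (J → ℂ)) : ℂ :=
  (∏ r, gz F f σ z.2 r ^ e r) * eval z.2 p ^ k

end Cnt

namespace Fam.Lin

variable [DecidableEq R] {F : Fam Empty Λ R J K} {l : Λ → ℂ} {φ c : R → ℤ} {ψ : I → Empty → ℤ}
  {f : I → MvPolynomial J ℂ} {σ : J → MvPolynomial I ℂ} (h : F.Lin l φ c ψ f σ) (hF : F.Good)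
  {z : (Λ → ℂ) × (J → ℂ)}

theorem fst_eq (hz : z ∈ F.lin l σ) : z.1 = l :=
  let ⟨t, _, _, _, e⟩ := hz
  (congrArg Prod.fst e).trans ((congrArg (F.actL · l) (Subsingleton.elim t.1 1)).trans (F.actL_one l))

include h hF

theorem nf' (hz : z ∈ F.lin l σ) : (fun a => eval z.2 (f a)) ≠ 0 ∧ (∀ r, gz F f σ z.2 r ≠ 0) ∧
    ∀ j, z.2 j = (∏ r, gz F f σ z.2 r ^ F.w j r) * sv σ (fun a => eval z.2 (f a)) j :=
  have a := h.nf hF (y := z.2) (fst_eq hz ▸ hz)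
  ⟨a.1, Classical.epsilon_spec a.2⟩

theorem gz_eq (hz : z ∈ F.lin l σ) {t : R → ℂ} (ht : ∀ r, t r ≠ 0)
    (e : ∀ j, z.2 j = (∏ r, t r ^ F.w j r) * sv σ (fun a => eval z.2 (f a)) j) :
    gz F f σ z.2 = t := by
  obtain ⟨a, b, d⟩ := h.nf' hF hz
  have := hF.free (fun r => gz F f σ z.2 r / t r) (isUnit_pi_iff.2 fun r => div_ne_zero (b r) (ht r))
    _ (h.mem _ a) ((act1 _ _ _).trans (Prod.ext rfl (funext fun j => by
      simp only [div_zpow, Finset.prod_div_distrib]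
      rw [div_mul_eq_mul_div, ← d j, e j, mul_div_cancel_left₀ _ (prod_zpow_ne ht _)])))
  exact funext fun r => (div_eq_one_iff_eq (ht r)).1 (congrFun this r)

theorem an_gz (hz : z ∈ F.lin l σ) (r : R) : ∃ Φ, AnalyticAt ℂ Φ z ∧ Φ z ≠ 0 ∧
    ∀ᶠ z' in 𝓝 z, z' ∈ F.lin l σ → gz F f σ z'.2 r = Φ z' := by
  obtain ⟨θ₀, n, hA⟩ := hF.ample
  have k : ∀ e : R → ℤ, (e = n • θ₀ ∨ ∃ i, e = n • θ₀ + Pi.single i 1 ∨ e = n • θ₀ - Pi.single i 1) →
      ∃ Φ, AnalyticAt ℂ Φ z ∧ ∀ᶠ z' in 𝓝 z, z' ∈ F.lin l σ →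
        ∏ r, gz F f σ z'.2 r ^ e r = Φ z' := fun e he => by
    obtain ⟨α, a, b⟩ := hA.2.2 e he _ (h.mem _ (h.nf' hF hz).1)
    have c1 : AnalyticAt ℂ (fun z : (Λ → ℂ) × (J → ℂ) =>
        ∏ j, sv σ (fun a => eval z.2 (f a)) j ^ α j) z := Finset.analyticAt_fun_prod _ fun j _ =>
      (an_ev (AnalyticAt.pi fun a => an_ev analyticAt_snd (f a)) (σ j)).pow _
    refine ⟨fun z => (∏ j, z.2 j ^ α j) / ∏ j, sv σ (fun a => eval z.2 (f a)) j ^ α j,
      (Finset.analyticAt_fun_prod _ fun j _ =>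
        (analyticAt_pi_iff.1 analyticAt_snd j).pow _).div c1 b,
      (c1.continuousAt.eventually_ne b).mono fun y hy d => ?_⟩
    obtain ⟨-, d1, d2⟩ := h.nf' hF d
    rw [eq_div_iff hy, Finset.prod_congr rfl fun j _ => congrArg (· ^ α j) (d2 j)]
    simp only [mul_pow, Finset.prod_mul_distrib, prod_pow_zpow d1, a]
  obtain ⟨Φ, a, b⟩ := k _ (.inr ⟨r, .inl rfl⟩)
  obtain ⟨Ψ, a', b'⟩ := k _ (.inl rfl)
  have d := fun e => prod_zpow_ne (h.nf' hF hz).2.1 e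
  refine ⟨Φ / Ψ, a.div a' (b'.self_of_nhds hz ▸ d _),
    div_ne_zero (b.self_of_nhds hz ▸ d _) (b'.self_of_nhds hz ▸ d _), ?_⟩
  filter_upwards [b, b'] with y u v w
  have d1 := (h.nf' hF w).2.1
  rw [Pi.div_apply, ← u w, ← v w]
  simp only [Pi.add_apply, zpow_add₀ (d1 _), Finset.prod_mul_distrib]
  rw [mul_div_cancel_left₀ _ (prod_zpow_ne d1 _), Finset.prod_eq_single r
    (fun b _ h => by simp [h]) (by simp)]
  simp

/-- **sections of any weight over the linear space** -/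
theorem sc {e : R → ℤ} {p : MvPolynomial J ℂ} (hp : Wp F.w c p) {k : ℕ} (hk : e ⬝ᵥ φ = k)
    (ψ' : Empty → ℤ) : F.Sc (F.lin l σ) ψ' e (lsec F f σ e p k) := by
  refine ⟨fun ⟨τ, t⟩ ht z hz => ⟨act_mem ht hz, ?_⟩, fun z hz => ?_⟩
  · obtain rfl : τ = 1 := Subsingleton.elim _ _
    have t0 := isUnit_pi_iff.1 (Prod.isUnit_iff.1 ht).2
    have s0 := prod_zpow_ne t0 c
    obtain ⟨-, a, b⟩ := h.nf' hF hz
    have e1 : (fun a => eval (F.actT (1, t) z).2 (f a)) = (∏ r, t r ^ c r) • fun a => eval z.2 (f a) :=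
      funext fun a => by rw [act1, (h.wf a).eval_mul t0]; rfl
    rw [lsec, h.gz_eq hF (act_mem ht hz) (t := fun r => t r * gz F f σ z.2 r / (∏ r, t r ^ c r) ^ φ r)
      (fun r => div_ne_zero (mul_ne_zero (t0 r) (a r)) (zpow_ne_zero _ s0)) fun j => by
        rw [e1, h.sv_smul s0, act1]
        simp only [div_zpow, mul_zpow, Finset.prod_div_distrib, Finset.prod_mul_distrib, zpow_dot s0]
        rw [← mul_assoc, div_mul_cancel₀ _ (zpow_ne_zero _ s0), mul_assoc, ← b j], act1,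
      hp.eval_mul t0, lsec]
    simp only [div_zpow, mul_zpow, Finset.prod_div_distrib, Finset.prod_mul_distrib, zpow_dot s0, hk,
      zpow_natCast, mul_pow, Finset.univ_eq_empty, Finset.prod_empty, one_mul]
    rw [← mul_assoc, div_mul_cancel₀ _ (pow_ne_zero _ s0), mul_assoc]
  · choose Φ a b d using h.an_gz hF hz
    refine ⟨fun y => (∏ r, Φ r y ^ e r) * eval y.2 p ^ k, (Finset.analyticAt_fun_prod _ fun r _ =>
      (a r).fun_zpow (b r)).mul ((an_ev analyticAt_snd p).pow _),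
      (eventually_all.2 d).mono fun y u v => ?_⟩
    simp only [lsec, fun r => u r v]

theorem sec_eq_zero (hz : z ∈ F.lin l σ) {e : R → ℤ} {p : MvPolynomial J ℂ} {k : ℕ} (hk : k ≠ 0) :
    lsec F f σ e p k z = 0 ↔ eval z.2 p = 0 :=
  (mul_eq_zero_iff_left (prod_zpow_ne (h.nf' hF hz).2.1 e)).trans (pow_eq_zero_iff hk)

end Fam.Lin

end Vale.Agent.P269
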