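import Vale.Agent.P287Q.Cnt.Lin

/-!
# The line through two points of a linear fibre
-/

set_option linter.unusedSectionVars false

namespace Vale.Agent.P269

open P291Z Set Function Topology Filter Cv MvPolynomial P1 OnePoint

namespace Cnt

section curve

variable {ν κ : Type} [Fintype ν] [Fintype κ] {c : AC ν κ}

variable (c) in
open Classical in
/-- The curve with fewer nodes. -/
@[reducible] noncomputable def cut (q : c.X × c.X → Prop) : AC ν κ :=
  { c with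
    N := c.N.filter q
    nd := c.nd.mono (Finset.filter_subset _ _)
    sm := fun n e a => c.sm n e (Finset.mem_filter.1 a).1 }

theorem sat_cut {q : c.X × c.X → Prop} {U : Set c.X} :
    (cut c q).Sat U ↔ IsClopen U ∧ ∀ n ∈ c.N, q n → (n.1 ∈ U ↔ n.2 ∈ U) := by
  simp only [AC.sat_iff, Finset.mem_filter, and_imp]

theorem sub_cut {q : c.X × c.X → Prop} : (cut c q).N ⊆ c.N := by
  classical
  exact fun _ h => Finset.mem_of_mem_filter _ h

theorem exists_cross (h : c.Conn) {U : Set c.X} (hU : IsClopen U) (h0 : U.Nonempty)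
    (h1 : U ≠ univ) : ∃ n ∈ c.N, ¬(n.1 ∈ U ↔ n.2 ∈ U) := by
  by_contra! e
  exact (h.2 U hU e).elim h0.ne_empty h1

/-- the complement of a connected part of a curve of genus zero -/
theorem degOn_compl_le (h : c.Conn) (hg : gen c.R c.N = 0) (q : c.X × c.X → Prop) (z : c.X)
    (h1 : (cut c q).cmp z ≠ univ) : degOn (omega c.R c.N ∅) ((cut c q).cmp z)ᶜ ≤ -1 := by
  classical
  have hT := sat_cut.1 (AC.sat_cmp (c := cut c q) z)
  obtain ⟨n, a, b⟩ := exists_cross h hT.1 ⟨z, AC.mem_cmp_self (c := cut c q) z⟩ h1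
  obtain ⟨g, e⟩ := AC.degOn_omega_cmp (c := cut c q) z
  suffices ∀ T : Set c.X, IsClopen T → ¬(n.1 ∈ T ↔ n.2 ∈ T) → ∀ N' ⊆ c.N, n ∉ N' →
      degOn (omega c.R N' ∅) T = 2 * g - 2 → degOn (omega c.R c.N ∅) Tᶜ ≤ -1 from
    this _ hT.1 b _ (Finset.filter_subset _ _) (fun k => b (hT.2 n a (Finset.mem_filter.1 k).2)) e
  intro T hU b' N' k1 k2 e
  have d := degOn_add_compl (L := omega c.R c.N ∅) hU
  rw [deg_omega, hg, degOn_omega] at d
  rw [degOn_omega] at e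
  have f := Finset.sum_le_sum_of_subset_of_nonneg (Finset.insert_subset a k1)
    (f := fun n => degOn (c.R.pt n.1) T + degOn (c.R.pt n.2) T)
    fun n _ _ => by simp only [degOn_pt hU]; positivity
  rw [Finset.sum_insert k2] at f
  have k : degOn (c.R.pt n.1) T + degOn (c.R.pt n.2) T = 1 := by
    simp only [degOn_pt hU]
    split_ifs with k1 k2 k2
    exacts [(b' (iff_of_true k1 k2)).elim, rfl, rfl, (b' (iff_of_false k1 k2)).elim]
  simp only [Finset.sum_empty, Finset.card_empty] at d e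
  omega

/-- a tail attached to a component -/
theorem degOn_tail (h : c.Conn) (hg : gen c.R c.N = 0) {x z : c.X}
    (hz : z ∉ connectedComponent x) : degOn (omega c.R c.N ∅) ((cut c fun n =>
      n.1 ∉ connectedComponent x ∧ n.2 ∉ connectedComponent x).cmp z) ≤ -1 := by
  have hT := (exists_comp (R := c.R) x).1
  have a := AC.mem_cmp_self (c := cut c fun n =>
    n.1 ∉ connectedComponent x ∧ n.2 ∉ connectedComponent x) z
  have b := sat_cut.1 (AC.sat_cmp (c := cut c fun n =>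
    n.1 ∉ connectedComponent x ∧ n.2 ∉ connectedComponent x) z)
  have d := AC.Sat.cmp_subset (c := cut c fun n =>
    n.1 ∉ connectedComponent x ∧ n.2 ∉ connectedComponent x)
    (sat_cut.2 ⟨hT.compl, fun _ _ e => iff_of_true e.1 e.2⟩) hz
  generalize (cut c fun n => n.1 ∉ connectedComponent x ∧ n.2 ∉ connectedComponent x).cmp z = V
    at a b d
  have s := sat_cut.1 (AC.sat_cmp (c := cut c fun n => n.1 ∉ V ∧ n.2 ∉ V) x)
  have s1 := s.1.connectedComponent_subset (AC.mem_cmp_self (c := cut c fun n => n.1 ∉ V ∧ n.2 ∉ V) x)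
  have s2 := AC.Sat.cmp_subset (c := cut c fun n => n.1 ∉ V ∧ n.2 ∉ V)
    (sat_cut.2 ⟨b.1.compl, fun _ _ e => iff_of_true e.1 e.2⟩) fun e => d e mem_connectedComponent
  have e : (cut c fun n => n.1 ∉ V ∧ n.2 ∉ V).cmp x = Vᶜ := s2.antisymm (sdiff_eq_empty.1 (by
    by_contra e
    obtain ⟨n, k1, k2⟩ := exists_cross h (b.1.compl.diff s.1) (nonempty_iff_ne_empty.2 e)
      fun f => (f.ge (mem_univ z)).1 a
    have k3 := b.2 n k1
    have k4 := s.2 n k1
    have k5 := @s1 n.1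
    have k6 := @s1 n.2
    have k7 := @d n.1
    have k8 := @d n.2
    simp only [Set.mem_sdiff, mem_compl_iff] at k2 k7 k8
    by_cases p1 : n.1 ∈ V <;> by_cases p2 : n.2 ∈ V
    · exact k2 (iff_of_false (fun e => e.1 p1) fun e => e.1 p2)
    · exact k2 (iff_of_false (fun e => e.1 p1) fun e =>
        p2 ((k3 ⟨k7 p1, fun f => e.2 (k6 f)⟩).1 p1))
    · exact k2 (iff_of_false (fun e => p1 ((k3 ⟨fun f => e.2 (k5 f), k8 p2⟩).2 p2)) fun e => e.1 p2)
    · exact k2 (and_congr (iff_of_true p1 p2) (k4 ⟨p1, p2⟩).not)))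
  have := degOn_compl_le h hg (fun n => n.1 ∉ V ∧ n.2 ∉ V) x fun f => (e.le (f.ge (mem_univ z))) a
  rwa [e, compl_compl] at this

/-- **stable maps of degree one that separate the marked points are smooth** -/
theorem smooth (h : c.Conn) (hg : gen c.R c.N = 0) {M Θ : LB c.R} (hM : Ge M 0) (h1 : deg M = 1)
    (hΘ : ∀ U, degOn M U = 0 → degOn Θ U = 0) (hs : Ge (c.ω * Θ) 1)
    (sep : ∀ n n', n ≠ n' → ∃ s ∈ H0 c.N M, ¬(s (c.p n) = 0 ↔ s (c.p n') = 0)) :
    c.N = ∅ ∧ ConnectedSpace c.X := by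
  classical
  obtain ⟨x, hx⟩ : ∃ x, 1 ≤ degOn M (connectedComponent x) := by
    by_contra! e
    have := ((ge_iff_comp (L := M⁻¹) le_rfl).2 fun x => by
      rw [degOn_inv]
      have := e x
      omega).nonneg univ
    rw [degOn_univ, deg_inv] at this
    omega
  have hT := (exists_comp (R := c.R) x).1
  have h0 : ∀ U, IsClopen U → U ⊆ (connectedComponent x)ᶜ → degOn M U = 0 := fun U a b => by
    have k1 := degOn_add_compl (L := M) hT
    have k2 := degOn_inter_add_diff (L := M) hT.compl a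
    have k3 := hM.nonneg U
    have k4 := hM.nonneg ((connectedComponent x)ᶜ \ U)
    rw [inter_eq_right.2 b] at k2
    omega
  have u : connectedComponent x = univ := eq_univ_of_forall fun z => by_contra fun hz => by
    have k1 := degOn_tail h hg hz
    let c' := cut c fun n => n.1 ∉ connectedComponent x ∧ n.2 ∉ connectedComponent x
    have k2 : c'.Sat (connectedComponent x)ᶜ := sat_cut.2 ⟨hT.compl, fun _ _ e => iff_of_true e.1 e.2⟩
    have k3 := (AC.sat_cmp (c := c') z).1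
    have k4 := hs _ k3 ⟨z, AC.mem_cmp_self (c := c') z⟩
    have k5 : ∀ s ∈ H0 c.N M, ∀ a ∈ c'.cmp z, ∀ b ∈ c'.cmp z, s b = 0 → s a = 0 :=
      fun s e a ha b hb f => by_contra fun g => ne_of_sat (c := c') k2 h0 e.1
        (fun n hn => e.2 n (sub_cut hn)) (k2.cmp_subset hz ha) g
        ((AC.cmp_eq (c := c') ha).ge hb) f
    rw [degOn_mul, hΘ _ (h0 _ k3 (k2.cmp_subset hz)), AC.degOn_ω_eq (c := c) k3] at k4
    have k6 : (Finset.univ.filter fun n => c.p n ∈ c'.cmp z).card ≤ 1 :=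
      Finset.card_le_one.2 fun n a n' b => by_contra fun e =>
        let ⟨s, i, j⟩ := sep n n' e
        j ⟨k5 s i _ (Finset.mem_filter.1 b).2 _ (Finset.mem_filter.1 a).2,
          k5 s i _ (Finset.mem_filter.1 a).2 _ (Finset.mem_filter.1 b).2⟩
    have k7 : degOn (omega c.R c.N ∅) (c'.cmp z) ≤ -1 := k1
    omega
  have : ConnectedSpace c.X := connectedSpace_iff_univ.2 (u ▸ isConnected_connectedComponent)
  have k1 := Cv.Conn.gen_nonneg (N := ∅) c.R ⟨h.1, fun U e _ => isClopen_iff.1 e⟩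
  simp only [gen, Finset.card_empty] at k1 hg
  exact ⟨Finset.card_eq_zero.1 (by omega), this⟩

end curve

/-- a section with too many zeros vanishes -/
theorem eq_zero_of_card {X : Type} [TopologicalSpace X] [T2Space X] [CompactSpace X]
    [ConnectedSpace X] {Q : RS X} {L : LB Q} {s : X → ℂ} (hs : s ∈ L.Γ) {T : Finset X}
    (hT : ∀ x ∈ T, s x = 0) (h : deg L < T.card) (x : X) : s x = 0 := by_contra fun e => by
  have := card_le_degOn isClopen_univ (fun x _ => hs x) (gen_univ hs e).ge fun x a => ⟨trivial, hT x a⟩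
  rw [degOn_univ] at this
  omega

variable {I : Type} [DecidableEq I] (a₀ a₁ : I)

/-- The homogeneous coordinates of the line. -/
noncomputable def lnc (x : OnePoint ℂ) : I → ℂ := Pi.single a₀ (mon 1 0 x) + Pi.single a₁ (mon 1 1 x)

variable {a₀ a₁} (h : a₀ ≠ a₁)
include h

theorem lnc_zero (x : OnePoint ℂ) : lnc a₀ a₁ x a₀ = mon 1 0 x := by simp [lnc, h]

theorem lnc_one (x : OnePoint ℂ) : lnc a₀ a₁ x a₁ = mon 1 1 x := by simp [lnc, h.symm]

omit h in
theorem lnc_of_ne {a : I} (h₀ : a ≠ a₀) (h₁ : a ≠ a₁) (x : OnePoint ℂ) : lnc a₀ a₁ x a = 0 := by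
  simp [lnc, h₀, h₁]

theorem lnc_ne (x : OnePoint ℂ) : lnc a₀ a₁ x ≠ 0 := fun e => by
  induction x using OnePoint.rec with
  | infty => simpa [lnc_one h] using congrFun e a₁
  | coe z => simpa [lnc_zero h] using congrFun e a₀

theorem lnc_mem (a : I) : (lnc a₀ a₁ · a) ∈ H0 ∅ (O 1) := by
  refine H0_empty.ge ?_
  by_cases h₀ : a = a₀
  · simp only [h₀, lnc_zero h]
    exact mon_mem (d := 1) zero_le_one
  by_cases h₁ : a = a₁
  · simp only [h₁, lnc_one h]
    exact mon_mem (d := 1) le_rfl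
  · simp only [lnc_of_ne h₀ h₁]
    exact zero_mem (O 1).Γ

end Cnt

open Cnt

variable {S Λ R J K I ν κ : Type} [Fintype S] [Fintype Λ] [Fintype R] [Fintype J] [Fintype K]
  [Fintype I] [Fintype ν] [Fintype κ] [DecidableEq R] [DecidableEq I]

/-- Three marked points. -/
structure Cnt.Tri (nA nB nC : Ch.Mk ν κ) : Prop where
  ab : nA ≠ nB
  ac : nA ≠ nC
  bc : nB ≠ nC
  all : ∀ n, n = nA ∨ n = nB ∨ n = nC

/-- The lines in the linear space with `nA` at the point `e a₀`, with `nB` at the point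
`e a₀ + e a₁` and with `nC` on the hyperplane `a₀`. -/
structure Fam.Ln (F : Fam S Λ R J K) (l : Λ → ℂ) (φ : R → ℤ) (f : I → MvPolynomial J ℂ)
    (σ : J → MvPolynomial I ℂ) (a₀ a₁ : I) (nA nB nC : Ch.Mk ν κ) (m : AM Λ R J ν κ) : Prop where
  sol : m.Sol F
  stab : m.Stable F.θ
  typ : m.Typ 0 φ
  conn : m.Conn
  lin : ∀ z, m.vl z ∈ F.lin l σ
  cA : ∀ a ≠ a₀, m.co f a (m.p nA) = 0
  cB : ∃ t, IsUnit t ∧ m.vl (m.p nB) = F.actT t (l, sv σ (lnc a₀ a₁ (1 : ℂ)))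
  cC : m.co f a₀ (m.p nC) = 0

variable {F : Fam S Λ R J K} {l : Λ → ℂ} {φ c : R → ℤ} {ψ : I → S → ℤ} {f : I → MvPolynomial J ℂ}
  {σ : J → MvPolynomial I ℂ} {a₀ a₁ : I} {nA nB nC : Ch.Mk ν κ} {m : AM Λ R J ν κ}

namespace Cnt.Tri

variable (t : Tri nA nB nC)
include t

theorem card : Fintype.card (Ch.Mk ν κ) = 3 := by
  classical
  rw [← Finset.card_univ, show (Finset.univ : Finset (Ch.Mk ν κ)) = {nA, nB, nC} from
    (Finset.eq_univ_of_forall fun n => by simpa using t.all n).symm]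
  exact Finset.card_eq_three.2 ⟨_, _, _, t.ab, t.ac, t.bc, rfl⟩

omit t in
variable (nA nB) in
open Classical in
/-- The points `0`, `1`, `∞`. -/
noncomputable def pos (n : Ch.Mk ν κ) : OnePoint ℂ :=
  if n = nA then (0 : ℂ) else if n = nB then (1 : ℂ) else ∞

omit t in
theorem pos_A : pos nA nB nA = (0 : ℂ) := if_pos rfl

theorem pos_B : pos nA nB nB = (1 : ℂ) := (if_neg t.ab.symm).trans (if_pos rfl)

theorem pos_C : pos nA nB nC = ∞ := (if_neg t.ac.symm).trans (if_neg t.bc.symm)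

theorem pos_inj : Injective (pos nA nB) := fun a b e => by
  rcases t.all a with rfl | rfl | rfl <;> rcases t.all b with rfl | rfl | rfl <;>
    first | rfl | simp [pos_A, t.pos_B, t.pos_C] at e

/-- The standard line. -/
@[reducible] noncomputable def std (φ : R → ℤ) (l : Λ → ℂ) (σ : J → MvPolynomial I ℂ) (a₀ a₁ : I) :
    AM Λ R J ν κ where
  X := OnePoint ℂ
  R := P1
  N := ∅
  p := pos nA nB
  nd := nd_empty
  inj := t.pos_inj
  sm _ _ h := nomatch h
  L r := O 1 ^ φ r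
  l := l
  y j x := sv σ (lnc a₀ a₁ x) j

end Cnt.Tri

namespace Fam.Lin

variable (h : F.Lin l φ c ψ f σ) (hF : F.Good) (t : Tri nA nB nC) (ha : a₀ ≠ a₁)
include h hF t ha

theorem ln_std : F.Ln l φ f σ a₀ a₁ nA nB nC (t.std φ l σ a₀ a₁) := by
  have sol : (t.std φ l σ a₀ a₁).Sol F := ⟨(h.mem _ (lnc_ne ha ∞)).1,
    fun j => (bz_pow (O 1) φ _).symm ▸ sv_mem (lnc_mem ha) (h.hom j), fun x => h.mem _ (lnc_ne ha x)⟩
  have typ : (t.std φ l σ a₀ a₁).Typ 0 φ := ⟨gen_P1, fun r => by rw [deg_zpow, deg_O, mul_one]⟩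
  have co : ∀ a x, (t.std φ l σ a₀ a₁).co f a x = lnc a₀ a₁ x a := fun a x => h.inv a _
  refine ⟨sol, ge_iff.2 ?_, typ, ⟨⟨∞⟩, fun U hU _ => isClopen_iff.1 hU⟩,
    fun x => ⟨1, isUnit_one, _, lnc_ne ha x, (F.actT_one _).symm⟩, fun a e => ?_,
    ⟨1, isUnit_one, (congrArg (fun x => (l, sv σ (lnc a₀ a₁ x))) t.pos_B).trans (F.actT_one _).symm⟩,
    ?_⟩
  · obtain ⟨θ₀, N, hA⟩ := hF.ample
    have a := sol.degOn_nonneg hA univ
    rw [deg_mul, AC.deg_ω, typ.1, t.card, ← degOn_univ, hA.1, AM.degOn_nsmul]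
    omega
  · rw [co, show (t.std φ l σ a₀ a₁).p nA = (0 : ℂ) from Tri.pos_A]
    by_cases e' : a = a₁
    · simp [e', lnc_one ha]
    · exact lnc_of_ne e e' _
  · rw [co, show (t.std φ l σ a₀ a₁).p nC = ∞ from t.pos_C, lnc_zero ha]
    simp

omit t ha in
theorem co_B (e : F.Ln l φ f σ a₀ a₁ nA nB nC m) (hl : m.l = l) :
    ∃ s ≠ 0, ∀ a, m.co f a (m.p nB) = s * lnc a₀ a₁ (1 : ℂ) a := by
  obtain ⟨⟨ρ, t'⟩, a, b⟩ := e.cB
  obtain rfl : ρ = 1 := hF.freeB _ (Prod.isUnit_iff.1 a).1 l (hl ▸ e.sol.1)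
    ((congrArg Prod.fst b).symm.trans hl)
  refine ⟨_, prod_zpow_ne (isUnit_pi_iff.1 (Prod.isUnit_iff.1 a).2) c, fun a' => ?_⟩
  rw [AM.co, b, eval_act (h.wf a') (h.wf' a') a, h.inv]
  simp

theorem smooth (e : F.Ln l φ f σ a₀ a₁ nA nB nC m) (hl : m.l = l) :
    m.N = ∅ ∧ ConnectedSpace m.X := by
  obtain ⟨nz, -⟩ := h.gauge hF e.sol.2.1 hl e.lin
  have u := h.co_mem e.sol.2.1
  obtain ⟨s, s0, cB⟩ := h.co_B hF e hl
  have A0 : m.co f a₀ (m.p nA) ≠ 0 := (nz _).elim fun a b => by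
    rwa [show a = a₀ from by_contra fun k => b (e.cA a k)] at b
  have B0 : m.co f a₀ (m.p nB) ≠ 0 := by simp [cB, lnc_zero ha, s0]
  have B1 : m.co f a₁ (m.p nB) ≠ 0 := by simp [cB, lnc_one ha, s0]
  have A1 := e.cA a₁ ha.symm
  refine Cnt.smooth e.conn e.typ.1 (h.ge_zero hF e.sol.2.1 hl e.lin) ((e.typ.deg_bz c).trans h.one)
    (fun U k => by rw [h.degOn_bz hF e.sol.2.1 hl e.lin, k, zero_mul]) e.stab fun n n' k => ?_
  rcases t.all n with a | a | a <;> rcases t.all n' with b | b | b <;> rw [a, b] at k ⊢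
  exacts [(k rfl).elim, ⟨_, u a₁, fun i => B1 (i.1 A1)⟩, ⟨_, u a₀, fun i => A0 (i.2 e.cC)⟩,
    ⟨_, u a₁, fun i => B1 (i.2 A1)⟩, (k rfl).elim, ⟨_, u a₀, fun i => B0 (i.2 e.cC)⟩,
    ⟨_, u a₀, fun i => A0 (i.1 e.cC)⟩, ⟨_, u a₀, fun i => B0 (i.1 e.cC)⟩, (k rfl).elim]

theorem exists_par (e : F.Ln l φ f σ a₀ a₁ nA nB nC m) (hl : m.l = l) :
    ∃ g : OnePoint ℂ ≃ m.X, LIso P1 m.R g ∧ (∀ n, g (Tri.pos nA nB n) = m.p n) ∧
      ∀ x, ∃ r : ℂ, (fun a => m.co f a (g x)) = r • lnc a₀ a₁ x := by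
  classical
  obtain ⟨hN, _⟩ := h.smooth hF t ha e hl
  have u := h.co_mem e.sol.2.1
  have d1 : deg (bz m.L c) = 1 := (e.typ.deg_bz c).trans h.one
  obtain ⟨s, s0, cB⟩ := h.co_B hF e hl
  obtain ⟨g, hg, gp⟩ := exists_iso' (R := m.R) (by
    have := e.typ.1
    rw [gen, hN, Finset.card_empty] at this
    omega) t.card.le m.inj t.pos_inj
  have gA := gp nA
  have gB := gp nB
  have gC := gp nC
  rw [Tri.pos_A] at gA
  rw [t.pos_B] at gB
  rw [t.pos_C] at gC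
  have k1 : ∀ a, a ≠ a₀ → a ≠ a₁ → ∀ x, m.co f a x = 0 := fun a b b' => eq_zero_of_card (u a).1
    (T := {m.p nA, m.p nB}) (by simp [e.cA a b, cB, lnc_of_ne b b'])
    (by rw [d1, Finset.card_pair (m.inj.ne t.ab)]; simp)
  have k2 := eq_zero_of_card (sub_mem
    (LB.mul_mem (hg.pb_mem (u a₁).1) (mon_mem (d := 1) zero_le_one))
    (LB.mul_mem (hg.pb_mem (u a₀).1) (mon_mem (d := 1) le_rfl)))
    (T := {((0 : ℂ) : OnePoint ℂ), ((1 : ℂ) : OnePoint ℂ), ∞})
    (by simp [gA, gB, gC, e.cA a₁ ha.symm, cB, lnc_zero ha, lnc_one ha, e.cC]) (by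
      rw [deg_mul, hg.deg_equiv, d1, deg_O,
        Finset.card_eq_three.2 ⟨_, _, _, by simp, by simp, by simp, rfl⟩]
      simp)
  refine ⟨g, hg, gp, fun x => ?_⟩
  obtain ⟨r, hr⟩ : ∃ r, m.co f a₀ (g x) = r * mon 1 0 x ∧ m.co f a₁ (g x) = r * mon 1 1 x := by
    have := sub_eq_zero.1 (k2 x)
    induction x using OnePoint.rec with
    | infty => exact ⟨m.co f a₁ (g ∞), by simpa using this.symm, by simp⟩
    | coe z => exact ⟨m.co f a₀ (g z), by simp, by simpa using this⟩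
  refine ⟨r, funext fun a => ?_⟩
  by_cases b : a = a₀
  · rw [b, hr.1, Pi.smul_apply, lnc_zero ha, smul_eq_mul]
  by_cases b' : a = a₁
  · rw [b', hr.2, Pi.smul_apply, lnc_one ha, smul_eq_mul]
  · rw [k1 a b b', Pi.smul_apply, lnc_of_ne b b', smul_zero]

theorem iso_std' [IsEmpty κ] (e : F.Ln l φ f σ a₀ a₁ nA nB nC m) (hl : m.l = l) :
    AM.Iso F.toWt univ (t.std φ l σ a₀ a₁) m := by
  obtain ⟨nz, τ, τ0, -, τe⟩ := h.gauge hF e.sol.2.1 hl e.lin
  obtain ⟨g, hg, gp, k3⟩ := h.exists_par hF t ha e hl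
  choose r re using k3
  have r0 : ∀ x, r x ≠ 0 := fun x z =>
    (nz (g x)).elim fun a b => b (by simpa [z] using congrFun (re x) a)
  have k4 : ∀ j x, m.y j (g x) =
      (∏ i, (τ i (g x) * r x ^ φ i) ^ F.w j i) * sv σ (lnc a₀ a₁ x) j := fun j x => by
    rw [τe, re, h.sv_smul (r0 x), ← mul_assoc, ← zpow_dot (r0 x), ← Finset.prod_mul_distrib]
    simp only [mul_zpow]
  have k5 : ∀ i x, τ i (g x) * r x ^ φ i ≠ 0 := fun i x =>
    mul_ne_zero (τ0 _ _) (zpow_ne_zero _ (r0 x))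
  have s₀ := (h.ln_std hF t ha).sol
  have k6 := gauge_mem hF (L := fun i => hg.pb (m.L i)) (L' := fun i => O 1 ^ φ i)
    (y := fun j x => m.y j (g x)) (y' := fun j x => sv σ (lnc a₀ a₁ x) j)
    (fun j => hg.pb_bz (F.w j) ▸ hg.pb_mem (e.sol.2.1 j).1) (fun j => (s₀.2.1 j).1) (l := l)
    (fun x => h.mem _ (lnc_ne ha x)) k5 k4
  exact ⟨g, hg, fun i x => τ i (g x) * r x ^ φ i, 1, isUnit_one,
    fun _ _ => by simp [(h.smooth hF t ha e hl).1], gp,
    fun i => ⟨H0_empty.ge (k6 i), k5 i, fun q => isEmptyElim q⟩, hl.trans (F.actL_one l).symm,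
    fun j _ x => (k4 j x).trans (congrFun (congrArg Prod.snd (act1 F.toWt
      (fun i => τ i (g x) * r x ^ φ i) (l, sv σ (lnc a₀ a₁ x)))) j).symm⟩

/-- **uniqueness of the line** -/
theorem iso_std [IsEmpty κ] (e : F.Ln l φ f σ a₀ a₁ nA nB nC m) :
    AM.Iso F.toWt univ (t.std φ l σ a₀ a₁) m := by
  obtain ⟨τ, a, b, d⟩ := h.exists_scl hF e.sol (m.p nA) e.lin
  have i := AM.iso_scl (F := F.toWt) (A := univ) (m := m) a
  have u : IsUnit ((τ, 1) : (S → ℂ) × (R → ℂ)) := Prod.isUnit_iff.2 ⟨a, isUnit_one⟩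
  have v : ∀ z, (m.scl F.toWt τ).vl z = F.actT (τ, 1) (m.vl z) := fun z => by
    simp [Wt.actT, AM.vl, AM.scl]
  have w : ∀ a z, m.co f a z = 0 → (m.scl F.toWt τ).co f a z = 0 := fun a z k => by
    have := eval_act (h.wf a) (h.wf' a) u (m.vl z)
    rw [← v z] at this
    exact this.trans (mul_eq_zero_of_right _ k)
  obtain ⟨s, s1, s2⟩ := e.cB
  exact (h.iso_std' hF t ha ⟨i.sol hF.toInv e.sol, i.stable e.stab, i.typ e.typ, i.conn e.conn, d,
    fun a k => w _ _ (e.cA a k), ⟨_, u.mul s1, (v _).trans (by rw [F.actT_mul, ← s2]; rfl)⟩,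
    w _ _ e.cC⟩ b).trans i.symm

end Fam.Lin

end Vale.Agent.P269
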